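import Vale.Agent.P014T.Lc.Fx
import Vale.Agent.P014T.Lc.Np
import Vale.Agent.P004M.TE.All
import Vale.Agent.P004F.En.Big

/-! # P014T (helper67): the local factor at a good odd prime, and at the primes of a tower -/

set_option linter.all false

noncomputable section

namespace Vale.Agent.P014T.Ba

open NumberField P004N.H169.LF Vale.Agent.P014T.Lc Vale.Agent.P014T.Sm
open Vale.Agent.P022 (Qb GQ IsFrob)
open Vale.Agent.P022D.W (dec)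
open Vale.Agent.P022E.GW (Ov Fb)
open Vale.Agent.P004F.En (Gq)
open P004M.TE (al rep)
open scoped NumberTheorySymbols

variable {A B d : ℤ} {q : ℕ} {u r s t : ℚ}

theorem nd_sw (hq : q.Prime) (hg : ¬ (q : ℤ) ∣ 2 * (4 * A ^ 3 + 27 * B ^ 2)) :
    ¬ (q : ℤ) ∣ (sw A B).Δ := by
  have hp := Nat.prime_iff_prime_int.1 hq
  rw [sw_Δ, show -16 * (4 * A ^ 3 + 27 * B ^ 2) = -(2 ^ 3 * (2 * (4 * A ^ 3 + 27 * B ^ 2))) by
    ring, dvd_neg]
  exact fun h => hg ((hp.dvd_or_dvd h).elim (fun h => (hp.dvd_of_dvd_pow h).mul_right _) id)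

theorem al_sw (A B : ℤ) (n : ℕ) : al A B n = (sw (A : ℚ) (B : ℚ)).LFunction n := by
  simp [al, sw]

theorem wq_sw (A B : ℤ) : Wq (sw A B) = sw (A : ℚ) (B : ℚ) := by
  rw [Wq, sw_map]; rfl

theorem md_sw (A B : ℤ) : Md (Wq (sw A B)) A B 1 0 0 0 := by
  rw [wq_sw]; exact Vc.Ch.refl _

theorem np_sw (hq : q.Prime) (hg : ¬ (q : ℤ) ∣ 2 * (4 * A ^ 3 + 27 * B ^ 2)) :
    (np (sw A B) q : ℤ) = q + 1 - al A B q := by
  haveI : Fact q.Prime := ⟨hq⟩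
  have g1 := (LFunction_good (sw A B) hq (nd_sw hq hg)).1
  have g2 := card_point ((sw A B).map (Int.castRingHom (ZMod q))) (by
    rw [WeierstrassCurve.map_Δ]
    exact fun h => nd_sw hq hg ((ZMod.intCast_zmod_eq_zero_iff_dvd _ q).1 h))
  rw [al_sw, ← wq_sw, g1, np, g2]
  push_cast
  ring

theorem al_tw (hq : q.Prime) (hg : ¬ (q : ℤ) ∣ 2 * (4 * A ^ 3 + 27 * B ^ 2)) (hd : ¬ (q : ℤ) ∣ d) :
    al (A * d ^ 2) (B * d ^ 3) q = J(d | q) * al A B q := by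
  haveI : Fact q.Prime := ⟨hq⟩
  rw [al_sw, al_sw, ← jacobiSym.legendreSym.to_jacobiSym,
    ← LFunction_twist A B d hq (nd_sw hq hg) hd]
  push_cast
  rfl

theorem nd_tw (hq : q.Prime) (hg : ¬ (q : ℤ) ∣ 2 * (4 * A ^ 3 + 27 * B ^ 2)) (hd : ¬ (q : ℤ) ∣ d) :
    ¬ (q : ℤ) ∣ 2 * (4 * (A * d ^ 2) ^ 3 + 27 * (B * d ^ 3) ^ 2) := by
  have hp := Nat.prime_iff_prime_int.1 hq
  rw [show 2 * (4 * (A * d ^ 2) ^ 3 + 27 * (B * d ^ 3) ^ 2) =
    2 * (4 * A ^ 3 + 27 * B ^ 2) * d ^ 6 by ring]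
  exact fun h => (hp.dvd_or_dvd h).elim hg fun h => hd (hp.dvd_of_dvd_pow h)

theorem norm_nat {n : ℕ} (h : n ≠ 0) : ‖(n : ℚ_[2])‖ * 2 ^ padicValNat 2 n = 1 := by
  rw [Padic.norm_eq_zpow_neg_valuation (Nat.cast_ne_zero.2 h), Padic.valuation_natCast,
    _root_.zpow_neg, zpow_natCast]
  exact inv_mul_cancel₀ (by positivity)

/-- **the local factor at a good odd prime**, for any integral model -/
theorem good {W : WeierstrassCurve ℤ} (hΔ : W.Δ ≠ 0) (h : Md (Wq W) A B u r s t) (hq : q.Prime)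
    (hg : ¬ (q : ℤ) ∣ 2 * (4 * A ^ 3 + 27 * B ^ 2)) : 0 < q + 1 - al A B q ∧
    ‖((q + 1 - al A B q : ℤ) : ℚ_[2])‖ * 2 ^ padicValNat 2 (tm (Wq W) q * np W q) = 1 := by
  haveI : Fact q.Prime := ⟨hq⟩
  have o := Sh.Lp.ov_PP (p := q)
  have h2 : q ≠ 2 := by rintro rfl; exact hg (dvd_mul_right _ _)
  have h0 : (sw A B).Δ ≠ 0 := fun e => nd_sw hq hg (e ▸ dvd_zero _)
  have a1 := (Lc.odd hΔ h o h2).1
  have a2 := (Lc.odd h0 (md_sw A B) o h2).1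
  rw [tm_good _ (nd_sw hq hg), one_mul] at a2
  have a3 := Nat.pow_right_injective (le_refl 2) (a1.symm.trans a2)
  have p := np_pos (sw A B) hq
  rw [a3, ← np_sw hq hg]
  exact ⟨by exact_mod_cast p, norm_nat p.ne'⟩

theorem gq_al (hD : 4 * (A : ℚ) ^ 3 + 27 * (B : ℚ) ^ 2 ≠ 0) (hq : q.Prime)
    (hg : ¬ (q : ℤ) ∣ 2 * (4 * A ^ 3 + 27 * B ^ 2)) {φ : GQ} (f : IsFrob q φ) {m : ℕ}
    (G : Gq (rep hD) m φ) {ε : ℤ} (hε : ε = 1 ∨ ε = -1) :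
    (1 / 2) ^ m ≤ ‖((q + 1 - ε * al A B q : ℤ) : ℚ_[2])‖ := by
  haveI : Fact q.Prime := ⟨hq⟩
  obtain ⟨h1, h2⟩ := P004M.TE.frob_mt hD hg f
  have e1 : (P004S.mt (rep hD) φ).trace = (al A B q : ℚ_[2]) := by
    rw [P004S.mt, P004M.TE.rep_val, RingHom.mapMatrix_apply, ← AddMonoidHom.map_trace, h1,
      P004M.TE.al_eq hg]
    simp
  have e2 : P004S.ep (rep hD) φ = q := by
    rw [P004S.ep, P004S.mt, P004M.TE.rep_val, ← RingHom.map_det, h2, map_natCast]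
  rw [Gq, e1, e2] at G
  rcases hε with rfl | rfl
  · exact G.1.trans (le_of_eq (congrArg _ (by push_cast; ring)))
  · exact G.2.trans (le_of_eq (congrArg _ (by push_cast; ring)))

theorem le_of_norm {x : ℝ} {v m : ℕ} (h : x * 2 ^ v = 1) (h' : (1 / 2) ^ m ≤ x) : v ≤ m := by
  have := mul_le_mul_of_nonneg_right h' (by positivity : (0 : ℝ) ≤ 2 ^ v)
  rw [h, one_div, inv_pow, inv_mul_le_iff₀ (by positivity), mul_one] at this
  exact (pow_le_pow_iff_right₀ (by norm_num)).1 this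

/-- **H7**: at a prime of a tower the local factor of every twist is bounded -/
theorem h7 (hD : 4 * (A : ℚ) ^ 3 + 27 * (B : ℚ) ^ 2 ≠ 0) (hq : q.Prime)
    (hg : ¬ (q : ℤ) ∣ 2 * (4 * A ^ 3 + 27 * B ^ 2)) (hd : ¬ (q : ℤ) ∣ d) {φ : GQ} (f : IsFrob q φ)
    {m : ℕ} (G : Gq (rep hD) m φ) {W : WeierstrassCurve ℤ} (hΔ : W.Δ ≠ 0)
    (h : Md (Wq W) (A * d ^ 2 : ℤ) (B * d ^ 3 : ℤ) u r s t) :
    ‖((q + 1 - J(d | q) * al A B q : ℤ) : ℚ_[2])‖ * 2 ^ padicValNat 2 (tm (Wq W) q * np W q) = 1 ∧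
      padicValNat 2 (tm (Wq W) q * np W q) ≤ m := by
  have a := (good hΔ h hq (nd_tw hq hg hd)).2
  rw [al_tw hq hg hd] at a
  refine ⟨a, le_of_norm a (gq_al hD hq hg f G (jacobiSym.eq_one_or_neg_one ?_))⟩
  rw [Int.gcd_comm]
  exact Int.isCoprime_iff_gcd_eq_one.1
    (((Nat.prime_iff_prime_int.1 hq).irreducible.coprime_iff_not_dvd).2 hd)

theorem h7' (hD : 4 * (A : ℚ) ^ 3 + 27 * (B : ℚ) ^ 2 ≠ 0) (hq : q.Prime)
    (hg : ¬ (q : ℤ) ∣ 2 * (4 * A ^ 3 + 27 * B ^ 2)) {φ : GQ} (f : IsFrob q φ)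
    {m : ℕ} (G : Gq (rep hD) m φ) {W : WeierstrassCurve ℤ} (hΔ : W.Δ ≠ 0)
    (h : Md (Wq W) A B u r s t) : padicValNat 2 (tm (Wq W) q * np W q) ≤ m :=
  le_of_norm (good hΔ h hq hg).2 (by simpa using gq_al hD hq hg f G (Or.inl rfl))

theorem nd_of {x : ℤ} {m : ℕ} (h : (1 / 2) ^ m ≤ ‖(x : ℚ_[2])‖) : ¬ (2 : ℤ) ^ (m + 1) ∣ x := fun k => by
  have := h.trans ((int_norm x (m + 1)).2 k)
  rw [one_div, inv_pow, inv_le_inv₀ (by positivity) (by positivity)] at this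
  exact absurd this (not_le.2 (pow_lt_pow_right₀ (by norm_num) (Nat.lt_succ_self m)))

/-- the same in the words of the top level -/
theorem h7n (hD : 4 * (A : ℚ) ^ 3 + 27 * (B : ℚ) ^ 2 ≠ 0) (hq : q.Prime)
    (hg : ¬ (q : ℤ) ∣ 2 * (4 * A ^ 3 + 27 * B ^ 2)) {φ : GQ} (f : IsFrob q φ) {m : ℕ}
    (G : Gq (rep hD) m φ) : ¬ (2 : ℤ) ^ (m + 1) ∣ q + 1 - al A B q ∧
      ∀ d : ℤ, ¬ (q : ℤ) ∣ d → ¬ (2 : ℤ) ^ (m + 1) ∣ q + 1 - al (A * d ^ 2) (B * d ^ 3) q := by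
  refine ⟨nd_of (by simpa using gq_al hD hq hg f G (Or.inl rfl)), fun d hd => nd_of ?_⟩
  rw [al_tw hq hg hd]
  refine gq_al hD hq hg f G (jacobiSym.eq_one_or_neg_one ?_)
  rw [Int.gcd_comm]
  exact Int.isCoprime_iff_gcd_eq_one.1
    (((Nat.prime_iff_prime_int.1 hq).irreducible.coprime_iff_not_dvd).2 hd)

/-- the product over a set of primes -/
theorem h7p {W : WeierstrassCurve ℤ} (T : Finset ℕ) (x : ℕ → ℚ_[2]) {m : ℕ}
    (h0 : ∀ q ∈ T, tm (Wq W) q * np W q ≠ 0)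
    (h : ∀ q ∈ T, ‖x q‖ * 2 ^ padicValNat 2 (tm (Wq W) q * np W q) = 1 ∧
      padicValNat 2 (tm (Wq W) q * np W q) ≤ m) :
    ‖∏ q ∈ T, x q‖ * 2 ^ padicValNat 2 (∏ q ∈ T, tm (Wq W) q * np W q) = 1 ∧
      padicValNat 2 (∏ q ∈ T, tm (Wq W) q * np W q) ≤ m * T.card := by
  classical
  induction T using Finset.induction_on with
  | empty => simp
  | insert q T hq ih =>
    obtain ⟨a, b⟩ := ih (fun p k => h0 p (Finset.mem_insert_of_mem k))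
      fun p k => h p (Finset.mem_insert_of_mem k)
    obtain ⟨c, e⟩ := h q (Finset.mem_insert_self _ _)
    rw [Finset.prod_insert hq, Finset.prod_insert hq, Finset.card_insert_of_notMem hq,
      padicValNat.mul (h0 q (Finset.mem_insert_self _ _))
        (Finset.prod_ne_zero_iff.2 fun p k => h0 p (Finset.mem_insert_of_mem k)), norm_mul, pow_add]
    exact ⟨by rw [mul_mul_mul_comm, a, c, mul_one], by rw [mul_add_one]; omega⟩

end Vale.Agent.P014T.Ba
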