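import Vale.Agent.P014T.Ba.Spq

/-!
# P014T, block B, abstract algebra (helper67): `W = α d` in the shape of the clause `mc`
-/

set_option linter.all false

noncomputable section

namespace Vale.Agent.P014T.Ba

open Matrix Submodule Set

theorem card_ann_ge {x : ℤ_[2]} {a j : ℕ} (h : 2 ^ a ∣ x) (hj : a ≤ j) :
    2 ^ a ≤ Nat.card {y : ZMod (2 ^ j) // PadicInt.toZModPow j x * y = 0} := by
  have h0 : ((2 : ℤ_[2]) ^ a) ≠ 0 := pow_ne_zero _ two_ne_zero
  have e : ((2 : ℤ_[2]) ^ a).valuation = a := by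
    have := PadicInt.valuation_p_pow_mul (p := 2) a 1 one_ne_zero
    simpa using this
  have h1 := card_ann h0 (j := j) (e.symm ▸ hj)
  rw [e] at h1
  obtain ⟨z, rfl⟩ := h
  rw [← h1]
  exact Nat.card_le_card_of_injective (fun y => ⟨y.1, by
    rw [mul_comm _ z, map_mul, mul_assoc, y.2, mul_zero]⟩)
    fun y y' k => Subtype.ext (congrArg Subtype.val k :)

theorem dvd_val {x : ℤ_[2]} (hx : x ≠ 0) {a : ℕ} : 2 ^ a ∣ x ↔ a ≤ x.valuation := by
  rw [← PadicInt.mem_span_pow_iff_le_valuation _ hx, Ideal.mem_span_singleton]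
  rfl

theorem card_kr_ge {H : Matrix (Fin 2) (Fin 2) ℤ_[2]} (h0 : H.det ≠ 0) {a j : ℕ}
    (h : 2 ^ a ∣ H.det) (hj : a ≤ j) : 2 ^ a ≤ Nat.card (Kr (H.map (PadicInt.toZModPow j))) := by
  obtain ⟨P, P', c, hP, hP', e⟩ := snf H h0
  have ed := congrArg det e
  rw [det_mul, det_mul, det_diagonal, Fin.prod_univ_two] at ed
  have h1 : 2 ^ a ∣ c 0 * c 1 := hP'.dvd_mul_left.1 (ed ▸ h.mul_right _)
  have h2 : c 0 * c 1 ≠ 0 := fun k => mul_ne_zero h0 hP.ne_zero (by rw [ed, k, mul_zero])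
  have u : ∀ X : Matrix (Fin 2) (Fin 2) ℤ_[2], IsUnit X.det →
      IsUnit (X.map (PadicInt.toZModPow j)).det := fun X hX => by
    have := hX.map (PadicInt.toZModPow j)
    rwa [RingHom.map_det] at this
  rw [kr_unit (D := diagonal fun i => PadicInt.toZModPow j (c i)) (u P hP) (u P' hP') (by
    rw [← Matrix.map_mul, e, Matrix.map_mul, diagonal_map (map_zero _)]), kr_diag,
    Fin.prod_univ_two]
  rw [dvd_val h2, PadicInt.valuation_mul (left_ne_zero_of_mul h2) (right_ne_zero_of_mul h2)] at h1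
  have b0 := card_ann_ge ((dvd_val (left_ne_zero_of_mul h2)).2 (min_le_left _ a))
    ((min_le_right _ a).trans hj)
  have b1 := card_ann_ge ((dvd_val (right_ne_zero_of_mul h2)).2 (min_le_left _ a))
    ((min_le_right _ a).trans hj)
  refine le_trans ?_ (Nat.mul_le_mul b0 b1)
  rw [← pow_add]
  exact Nat.pow_le_pow_right two_pos (by omega)

/-- few relations at one level force independence -/
theorem ind_of {κ : Type} [Fintype κ] {v w : κ → ℤ_[2]} {b j : ℕ} (hb : b < j)
    (h : 4 ^ j ≤ 2 ^ b * sp (fun k => PadicInt.toZModPow j (v k))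
      (fun k => PadicInt.toZModPow j (w k))) (s t : ℤ_[2]) (e : s • v + t • w = 0) :
    s = 0 ∧ t = 0 := by
  have key : ∀ v w : κ → ℤ_[2], ∀ x : ℤ_[2], v = x • w →
      Nat.card ↥(AddSubgroup.zmultiples (fun k => PadicInt.toZModPow j (v k)) ⊔
        AddSubgroup.zmultiples (fun k => PadicInt.toZModPow j (w k))) ≤ 2 ^ j := by
    rintro _ w x rfl
    rw [sup_eq_right.2 (AddSubgroup.zmultiples_le_of_mem (AddSubgroup.mem_zmultiples_iff.2
      ⟨(PadicInt.toZModPow j x).val, funext fun k => by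
        show ((PadicInt.toZModPow j x).val : ℤ) • PadicInt.toZModPow j (w k) = _
        simp⟩)), Nat.card_zmultiples]
    refine Nat.le_of_dvd (by positivity) (addOrderOf_dvd_of_nsmul_eq_zero (funext fun k => ?_))
    rw [Pi.smul_apply, nsmul_eq_mul, ZMod.natCast_self, zero_mul, Pi.zero_apply]
  have no : ¬ sp (fun k => PadicInt.toZModPow j (v k)) (fun k => PadicInt.toZModPow j (w k)) ≤
      2 ^ j := fun k => by
    have := h.trans (Nat.mul_le_mul_left _ k)
    rw [show (4 : ℕ) = 2 ^ 2 from rfl, ← pow_mul, ← pow_add,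
      Nat.pow_le_pow_iff_right (by norm_num)] at this
    omega
  by_contra hn
  rcases ValuationRing.dvd_total s t with ⟨x, rfl⟩ | ⟨x, rfl⟩
  · have s0 : s ≠ 0 := fun k => hn ⟨k, by rw [k, zero_mul]⟩
    refine no (key v w (-x) (smul_right_injective _ s0 ?_))
    show s • v = s • (-x) • w
    rw [eq_neg_of_add_eq_zero_left e]; module
  · have t0 : t ≠ 0 := fun k => hn ⟨by rw [k, zero_mul], k⟩
    refine no ?_
    rw [sp, sup_comm]
    refine key w v (-x) (smul_right_injective _ t0 ?_)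
    show t • w = t • (-x) • v
    rw [eq_neg_of_add_eq_zero_right e]; module

theorem mc0 {ι κ : Type} [Fintype ι] [DecidableEq ι] [Fintype κ] [DecidableEq κ]
    (e : κ ≃ ι ⊕ Fin 2) (Q : Matrix ι κ ℤ_[2]) {v w : κ → ℤ_[2]} (hv : Q *ᵥ v = 0)
    (hw : Q *ᵥ w = 0) {α : ℤ_[2]} (h : ∀ C, (C * cl v w).det = α * (st e Q C).det) {b j : ℕ}
    (hb : b < j) (hj : 4 ^ j ≤ 2 ^ b * sp (fun k => PadicInt.toZModPow j (v k))
      (fun k => PadicInt.toZModPow j (w k))) :
    (∀ n, b ≤ n → Nat.card (Kr (Q.map (PadicInt.toZModPow n))) ≤ 4 ^ n * 2 ^ b) ∧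
      (sp (fun k => PadicInt.toZModPow j (v k)) (fun k => PadicInt.toZModPow j (w k)) *
        Nat.card (Kr (Q.map (PadicInt.toZModPow j))) : ℝ) = 16 ^ j * ‖α‖ := by
  obtain ⟨C1, h1⟩ := ex_C (cl v w) fun s hs => by
    obtain ⟨a, b⟩ := ind_of hb hj _ _ ((cl_mulVec v w s).symm.trans hs)
    funext i
    fin_cases i
    · exact a
    · exact b
  rw [h] at h1
  have hα := left_ne_zero_of_mul h1
  obtain ⟨C, V, a, ha, -, -, v2, hU, hc, -, hs⟩ := min e Q ⟨C1, right_ne_zero_of_mul h1⟩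
  have hn : ‖(C * cl v w).det‖ * 2 ^ (a + α.valuation) = 1 := by
    rw [h, norm_mul, pow_add]
    calc _ = (‖(st e Q C).det‖ * 2 ^ a) * (‖α‖ * 2 ^ α.valuation) := by ring
      _ = 1 := by rw [ha, norm_val hα, mul_one]
  have h0 : (C * cl v w).det ≠ 0 := fun k => by simp [k] at hn
  have ev : (C * cl v w).det.valuation = a + α.valuation := by
    have := mul_left_cancel₀ (norm_ne_zero_iff.2 h0) ((norm_val h0).trans hn.symm)
    exact Nat.pow_right_injective (le_refl 2) (by exact_mod_cast this)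
  have le : a + α.valuation ≤ b := by
    by_contra k
    have g1 := card_kr_ge h0 (a := b + 1) ((dvd_val h0).2 (by omega)) hb
    have g2 := sp_col ((cl v w).map (PadicInt.toZModPow j))
    have g3 : Kr ((C * cl v w).map (PadicInt.toZModPow j)) ≤
        Kr ((cl v w).map (PadicInt.toZModPow j)) := fun y hy => by
      rw [mem_Kr, hU _ (mul_cl hv hw), Matrix.map_mul, ← mulVec_mulVec, mem_Kr.1 hy, mulVec_zero]
    have g4 := Nat.mul_le_mul_right (sp (fun k => PadicInt.toZModPow j (v k))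
      (fun k => PadicInt.toZModPow j (w k))) (g1.trans (AddSubgroup.card_le_of_le g3))
    have g5 := (g4.trans_eq g2).trans_eq (show (2 ^ j) ^ 2 = 4 ^ j by
      rw [← pow_mul, mul_comm, pow_mul]; rfl)
    have g6 := Nat.le_of_mul_le_mul_right (g5.trans hj) (Nat.pos_of_ne_zero fun k => by
      rw [k, mul_zero] at hj
      exact absurd hj (not_le.2 (by positivity)))
    rw [Nat.pow_le_pow_iff_right (by norm_num)] at g6
    omega
  refine ⟨fun n k => ?_, ?_⟩
  · rw [hc n (by omega)]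
    exact Nat.mul_le_mul_left _ (Nat.pow_le_pow_right two_pos (by omega))
  · have := hs (C * cl v w) (a + α.valuation) j hn (by omega)
    rw [← hU _ (mul_cl hv hw)] at this
    have t2 : (sp (fun k => PadicInt.toZModPow j (v k)) (fun k => PadicInt.toZModPow j (w k)) *
        2 ^ (a + α.valuation) : ℝ) = 4 ^ j := by exact_mod_cast this
    rw [hc j (by omega), show (16 : ℝ) = 4 * 4 by norm_num, mul_pow]
    push_cast
    rw [pow_add] at t2
    linear_combination 4 ^ j * ‖α‖ * t2 - 4 ^ j * 2 ^ a * (sp (fun k => PadicInt.toZModPow j (v k))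
      (fun k => PadicInt.toZModPow j (w k)) : ℝ) * norm_val hα

/-- **the clause `mc` for matrices**: `W x = α d` over a domain `Λ`, read through `f : Λ → ℤ₂` -/
theorem mc {Λ ι κ : Type} [CommRing Λ] [IsDomain Λ] [Fintype ι] [DecidableEq ι] [Fintype κ]
    [DecidableEq κ] (f : Λ →+* ℤ_[2]) (hf : Function.Surjective f) (e : κ ≃ ι ⊕ Fin 2)
    (Q : Matrix ι κ Λ) {v w : κ → Λ} (hv : Q *ᵥ v = 0) (hw : Q *ᵥ w = 0) {x : Fin 2 → κ → Λ}
    {α : Λ} (d0 : (st e Q (.of x)).det ≠ 0)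
    (h : (x 0 ⬝ᵥ v) * (x 1 ⬝ᵥ w) - (x 1 ⬝ᵥ v) * (x 0 ⬝ᵥ w) = α * (st e Q (.of x)).det) {b j : ℕ}
    (hb : b < j) (hj : 4 ^ j ≤ 2 ^ b * sp (fun k => PadicInt.toZModPow j (f (v k)))
      (fun k => PadicInt.toZModPow j (f (w k)))) :
    (∀ n, b ≤ n → Nat.card (Kr (Q.map ((PadicInt.toZModPow n).comp f))) ≤ 4 ^ n * 2 ^ b) ∧
      (sp (fun k => PadicInt.toZModPow j (f (v k))) (fun k => PadicInt.toZModPow j (f (w k))) *
        Nat.card (Kr (Q.map ((PadicInt.toZModPow j).comp f))) : ℝ) = 16 ^ j * ‖f α‖ := by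
  have h1 := all_C e Q (mul_cl hv hw) d0 (α := α) (by rw [det_cl, h])
  have hm : ∀ z : κ → Λ, Q *ᵥ z = 0 → Q.map f *ᵥ (fun k => f (z k)) = 0 := fun z hz =>
    funext fun i => by
      have := RingHom.map_mulVec f Q z i
      rw [hz, Pi.zero_apply, map_zero] at this
      exact this.symm
  exact mc0 e (Q.map f) (hm v hv) (hm w hw) (α := f α) (fun C => by
    choose g hg using hf
    have e1 : (C.map g).map f = C := Matrix.ext fun i k => hg _
    have e2 : cl (fun k => f (v k)) (fun k => f (w k)) = (cl v w).map f := by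
      ext k i; fin_cases i <;> rfl
    have := congrArg f (h1 (C.map g))
    rwa [map_mul, RingHom.map_det, RingHom.map_det, RingHom.mapMatrix_apply,
      RingHom.mapMatrix_apply, Matrix.map_mul, st_map, e1, ← e2] at this) hb hj

end Vale.Agent.P014T.Ba
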