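import Vale.Agent.P014T.Pq.All
import Vale.Agent.P014T.Dr.Shp

/-! # P014T, block B: framed lifts of corestrictions -/

set_option linter.all false

open Matrix Set

noncomputable section

namespace Vale.Agent.P014T.Ba.Tt

open Vale.Agent.P022 (Qb GQ IsConj)
open Vale.Agent.P022K.G2 (In)
open Vale.Agent.P004F (M2)
open Vale.Agent.P004F.Pr (ac)
open Pq (Zq Gd)
open Dr

variable {A R : Type} [CommRing A] [CommRing R] {ι κ : Type} [Fintype κ] {T : Finset ℕ} {c : GQ}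
  {a : GQ → M2 A} {Q : Matrix ι κ A} {u : GQ → Matrix (Fin 2) κ A}

/-- `(Q, u)` presents the framed cocycles -/
def Pn (T : Finset ℕ) (a : GQ → M2 A) (c : GQ) (Q : Matrix ι κ A) (u : GQ → Matrix (Fin 2) κ A) :
    Prop := ∀ (M : Type) [AddCommGroup M] [Module A M],
  BijOn (fun (v : κ → M) g => ac (u g) v) {v | ac Q v = 0} (Zq M T a c)

/-- base change -/
theorem Pn.map (h : Pn T a c Q u) (f : A →+* R) :
    Pn T (fun g => (a g).map f) c (Q.map f) fun g => (u g).map f := fun M _ _ =>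
  let _ := Module.compHom M f
  h M

theorem ac_lin {M s : Type} [AddCommGroup M] [Module A M] (φ : A →ₗ[A] M) (B : Matrix s κ A)
    (v : κ → A) : ac B (φ ∘ v) = φ ∘ (B *ᵥ v) := funext fun i => by
  simp only [ac, Function.comp, mulVec, dotProduct, map_sum, ← smul_eq_mul, map_smul]

/-- coordinates modulo the annihilator of `δ` -/
theorem Pn.lift (h : Pn T a c Q u) (δ : A) {ζ : GQ → Fin 2 → A} (co : Co ⊤ a ζ)
    (unr : ∀ g ∈ In T, δ • ζ g = 0) (fr : ζ c = 0) :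
    ∃ w, Q *ᵥ (δ • w) = 0 ∧ ∀ g, u g *ᵥ (δ • w) = δ • ζ g := by
  let φ := (LinearMap.ker (LinearMap.lsmul A A δ)).mkQ
  have k {s : Type} {x y : s → A} : φ ∘ x = φ ∘ y ↔ δ • x = δ • y :=
    funext_iff.trans ((forall_congr' fun i => (Submodule.Quotient.eq _).trans
      (LinearMap.mem_ker.trans (by rw [map_sub, sub_eq_zero]; rfl))).trans funext_iff.symm)
  have z {s : Type} : φ ∘ (0 : s → A) = 0 := funext fun _ => φ.map_zero
  obtain ⟨W, o, lc⟩ := co.lc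
  obtain ⟨v, v1, v2⟩ := (h _).surjOn (show (fun g => φ ∘ ζ g) ∈ _ from ⟨fun g g' => by
    rw [ac_lin]
    exact (congrArg (φ ∘ ·) (co.coc g trivial g' trivial)).trans (funext fun _ => φ.map_add _ _),
    ⟨W, o, fun w m => (congrArg (φ ∘ ·) (lc w m trivial)).trans z⟩,
    fun g m => (k.2 ((unr g m).trans (smul_zero δ).symm)).trans z, (congrArg (φ ∘ ·) fr).trans z⟩)
  choose w hw using fun i => Submodule.mkQ_surjective _ (v i)
  obtain rfl : φ ∘ w = v := funext hw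
  refine ⟨w, ?_, fun g => ?_⟩
  · rw [mulVec_smul, k.1 ((ac_lin φ Q w).symm.trans (v1.trans z.symm)), smul_zero]
  · rw [mulVec_smul, k.1 ((ac_lin φ _ w).symm.trans (congrFun v2 g))]

/-- the coboundary of an invariant vector -/
theorem Pn.cob (h : Pn T a c Q u) (G : Gd ⊤ T a) {p : Fin 2 → A} (fix : a c *ᵥ p = p) :
    ∃ v, Q *ᵥ v = 0 ∧ ∀ g, u g *ᵥ v = (a g - 1) *ᵥ p := by
  obtain ⟨v, v1, v2⟩ := (h _).surjOn (show (fun g => (a g - 1) *ᵥ p) ∈ _ from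
    ⟨fun g g' => by
      show _ *ᵥ _ = _ *ᵥ _ + a g *ᵥ _ *ᵥ _
      rw [mulVec_mulVec, ← add_mulVec, G.mul g trivial g' trivial, mul_sub_one, sub_add_sub_cancel'],
    G.lc.imp fun W e => ⟨e.1, fun w a => by simp [e.2 w trivial a]⟩,
    fun g a => by simp [G.unr g trivial a], by simp only [sub_mulVec, fix, one_mulVec, sub_self]⟩)
  exact ⟨v, v1, congrFun v2⟩

theorem Pn.inj (h : Pn T a c Q u) {v w : κ → A} (hv : Q *ᵥ v = 0) (hw : Q *ᵥ w = 0)
    (e : ∀ g, u g *ᵥ v = u g *ᵥ w) : v = w := (h A).injOn hv hw (funext e)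

theorem sum_inv {X : Type} [Fintype X] (σ : X → X) (h1 : ∀ x, σ (σ x) = x) (h2 : ∀ x, σ x ≠ x) :
    ∃ S : Finset X, ∀ {V : Type} [AddCommMonoid V] (t : X → V),
      ∑ x, t x = ∑ x ∈ S, (t x + t (σ x)) := by
  let f := Fintype.equivFin X
  refine ⟨Finset.univ.filter fun x => f x < f (σ x), fun t => ?_⟩
  rw [Finset.sum_add_distrib, ← Finset.sum_filter_add_sum_filter_not _ fun x => f x < f (σ x)]
  refine congrArg _ (Finset.sum_nbij' σ σ (fun x m => ?_) (fun x m => ?_) (fun x _ => h1 x)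
    (fun x _ => h1 x) fun x _ => by rw [h1])
  · simp only [Finset.mem_filter, Finset.mem_univ, true_and, h1, not_lt] at m ⊢
    exact m.lt_of_ne fun e => h2 x (f.injective e)
  · simp only [Finset.mem_filter, Finset.mem_univ, true_and, h1, not_lt] at m ⊢
    exact m.le

/-- a corestriction is a coboundary at an involution which acts freely -/
theorem cr_conj {a : GQ →* M2 A} {H : Subgroup GQ} [n : H.Normal] [Fintype (GQ ⧸ H)]
    {y : GQ → Fin 2 → A} (co : Co H a y) (c2 : c * c = 1) (hc : c ∉ H) :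
    ∃ m, cr a H y c = a c *ᵥ m - m := by
  have ci : c⁻¹ = c := inv_eq_of_mul_eq_one_right c2
  have m (x : GQ ⧸ H) : x.out⁻¹ * c * (c • x).out ∈ H := by
    rw [mul_assoc, ← QuotientGroup.eq, ← smul_eq_mul, MulAction.Quotient.mk_smul_out, smul_smul, c2,
      one_smul, QuotientGroup.out_eq']
  have s2 (x : GQ ⧸ H) : c • c • x = x := by rw [smul_smul, c2, one_smul]
  obtain ⟨S, hS⟩ := sum_inv (fun x : GQ ⧸ H => c • x) s2 fun x e => hc (by
    have := m x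
    rw [e] at this
    simpa [mul_assoc] using n.conj_mem _ this x.out)
  refine ⟨-∑ x ∈ S, a x.out *ᵥ y (x.out⁻¹ * c * (c • x).out), ?_⟩
  rw [cr, finsum_eq_sum_of_fintype, ci, hS, mulVec_neg, mulVec_sum, neg_sub_neg,
    ← Finset.sum_sub_distrib]
  refine Finset.sum_congr rfl fun x _ => ?_
  have := co.inv (H.inv_mem (m x))
  rw [inv_inv, show (x.out⁻¹ * c * (c • x).out)⁻¹ = (c • x).out⁻¹ * (c * x.out) by
    rw [_root_.mul_inv_rev, _root_.mul_inv_rev, inv_inv, ci]] at this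
  rw [s2, mul_assoc (c • x).out⁻¹, eq_neg_of_add_eq_zero_left this, mulVec_neg, mulVec_mulVec,
    mulVec_mulVec, ← map_mul, ← map_mul, mul_inv_cancel_left, sub_eq_add_neg]

theorem conj_out (h : IsConj c) {l : ℕ} (hl : 2 < l) : c ∉ Hm l := fun m => by
  have := NeZero.mk (zero_lt_two.trans hl).ne'
  obtain ⟨ζ, hζ⟩ := HasEnoughRootsOfUnity.exists_primitiveRoot Qb l
  obtain ⟨φ, e⟩ := h
  have k := e ζ
  rw [m ζ hζ.pow_eq_one, ← Complex.inv_eq_conj (Complex.norm_eq_one_of_pow_eq_one (by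
    rw [← map_pow, hζ.pow_eq_one, map_one]) this.ne), ← map_inv₀] at k
  exact hζ.pow_ne_one_of_pos_of_lt two_ne_zero hl (by
    rw [sq, ← eq_inv_mul_iff_mul_eq₀ (hζ.ne_zero this.ne), mul_one]; exact φ.injective k)

theorem conj_sq (h : IsConj c) : c * c = 1 := by
  obtain ⟨φ, e⟩ := h
  exact AlgEquiv.ext fun x => φ.injective (by rw [AlgEquiv.mul_apply, e, e, Complex.conj_conj]; rfl)

variable {N M : ℕ} {ρ : GQ →* M2 (Zn N)} {β : Zn N} {z : Fm N}

variable (ρ β M z) in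
/-- an Euler system which is `β` times a corestriction -/
structure Cz : Prop where
  es : ∃ S t Ad, Gr ρ S t Ad ∧ Eu ρ S t Ad z ∧ Ad M
  cr : ∃ y, Co (Hm M) ρ y ∧ ∀ (A : Type) [CommRing A] ι Ψ, Cd M Ψ →
    Ch ⊤ (aa ρ ι Ψ) (z M A ι Ψ) (ι β • cor ρ ι Ψ (Hm M) y)

theorem cz_of {S t Ad y} (G : Gr ρ S t Ad) (h : Raw ρ S t Ad y) {k : GQ} (hk : k ∈ Ha) :
    ∃ z, Eu ρ S t Ad z ∧ ∀ M, Ad M → Cz M ρ ((ρ k - 1).det ^ 2) z := by
  obtain ⟨z, e, f⟩ := shp N ρ S t Ad y G h k hk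
  exact ⟨z, e, fun M m => ⟨⟨S, t, Ad, G, e, m⟩, y M, h.co M m, fun A _ ι Ψ d => by
    rw [map_pow]; exact (f M A ι Ψ m d).2.1⟩⟩

/-- **the framed lift of the class divided by `β`** -/
theorem Cz.lift (h : Cz M ρ β z) {ι' : Zn N →+* A} {Ψ : GQ →* A} (d : Cd M Ψ)
    (nil : ∀ g, IsNilpotent (Ψ g - 1)) (G : Gd ⊤ T (aa ρ ι' Ψ)) (hc : IsConj c) (c0 : c ∉ Hm M)
    (ug : ∀ l P, P022E.GW.Ov l P → l ∉ T → Ug ρ l P ∧ ¬ l ∣ M) (p : Pn T (aa ρ ι' Ψ) c Q u) :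
    ∃ w, Q *ᵥ (ι' β • w) = 0 ∧ Ch ⊤ (aa ρ ι' Ψ) (fun g => u g *ᵥ (ι' β • w)) (z M A ι' Ψ) := by
  obtain ⟨⟨S, t, Ad, g, e, m⟩, y, co, k⟩ := h
  have o := Hm_open (g.pos M m)
  have := P022K.G2.cpt
  have := (Hm M).quotient_finite_of_isOpen o
  have := Fintype.ofFinite (GQ ⧸ Hm M)
  have c1 : Co ⊤ (am ρ ι' Ψ) (cor ρ ι' Ψ (Hm M) y) := (co.lf d).cr o
  obtain ⟨x, hx⟩ : ∃ x, cor ρ ι' Ψ (Hm M) y c = aa ρ ι' Ψ c *ᵥ x - x :=
    cr_conj (co.lf (ι := ι') d) (conj_sq hc) c0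
  obtain ⟨x', k⟩ := k A ι' Ψ d
  obtain ⟨W, o1, l1⟩ := c1.lc
  obtain ⟨W', o2, l2⟩ := G.lc
  obtain ⟨w, w1, w2⟩ := p.lift (ι' β) (ζ := fun g => cor ρ ι' Ψ (Hm M) y g - (aa ρ ι' Ψ g *ᵥ x - x))
    ⟨fun g _ g' _ => by
      rw [c1.coc g trivial g' trivial, aa_mul, ← mulVec_mulVec, mulVec_sub, mulVec_sub]
      show _ + aa ρ ι' Ψ g *ᵥ _ - _ = _
      abel, W ⊓ W', o1.inter o2, fun g a _ => by
      rw [l1 g a.1 trivial, l2 g trivial a.2, one_mulVec, sub_self, sub_self]⟩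
    (fun i a => by
      obtain ⟨l, b, P, ov, hi⟩ := id a
      have := k i trivial
      rw [unr0 g e m d nil (ug l P ov b).1 hi (d i (inert_Hm ov (ug l P ov b).2 hi)), G.unr i trivial a,
        one_mulVec, sub_self, zero_sub, neg_eq_zero] at this
      rw [G.unr i trivial a, one_mulVec, sub_self, sub_zero]
      exact this) (by rw [hx, sub_self])
  refine ⟨w, w1, -(ι' β • x) - x', fun g _ => ?_⟩
  have := k g trivial
  rw [Pi.smul_apply] at this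
  beta_reduce
  rw [w2, mulVec_sub, mulVec_neg, mulVec_smul, smul_sub, smul_sub]
  linear_combination (exp := 1) -this

end Vale.Agent.P014T.Ba.Tt
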