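import Vale.Agent.P014T.Ba.Mc

/-!
# P014T (helper67): cancellation in `ℤ₂⟦X⟧`, smoothing factors, the congruence between twists
-/

set_option linter.all false

noncomputable section

namespace Vale.Agent.P014T.Ba

open PowerSeries Matrix

/-- reduction modulo two -/
abbrev rd : ℤ_[2]⟦X⟧ →+* (ZMod 2)⟦X⟧ := PowerSeries.map PadicInt.toZMod

theorem rd_zero {f : ℤ_[2]⟦X⟧} : rd f = 0 ↔ 2 ∣ f := by
  constructor
  · intro h
    have : ∀ n, (2 : ℤ_[2]) ∣ coeff n f := fun n => by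
      have h1 := congrArg (coeff n) h
      rw [coeff_map, map_zero, ← RingHom.mem_ker, PadicInt.ker_toZMod,
        PadicInt.maximalIdeal_eq_span_p, Ideal.mem_span_singleton] at h1
      exact h1
    choose g hg using this
    refine ⟨mk g, PowerSeries.ext fun n => ?_⟩
    rw [show (2 : ℤ_[2]⟦X⟧) = C 2 from (map_ofNat C 2).symm, coeff_C_mul, coeff_mk, hg]
  · rintro ⟨g, rfl⟩
    rw [map_mul, map_ofNat, show (2 : (ZMod 2)⟦X⟧) = C 2 from (map_ofNat C 2).symm,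
      show (2 : ZMod 2) = 0 from rfl, map_zero, zero_mul]

theorem two_ne : (2 : ℤ_[2]⟦X⟧) ≠ 0 := by
  rw [show (2 : ℤ_[2]⟦X⟧) = C 2 from (map_ofNat C 2).symm]
  exact fun h => two_ne_zero (C_injective (h.trans (map_zero C).symm))

theorem prime_two : Prime (2 : ℤ_[2]⟦X⟧) :=
  ⟨two_ne, fun h => not_isUnit_zero (rd_zero.2 dvd_rfl ▸ h.map rd), fun a b h => by
    rwa [← rd_zero, map_mul, mul_eq_zero, rd_zero, rd_zero] at h⟩

theorem ne_of_rd {f : ℤ_[2]⟦X⟧} (h : rd f ≠ 0) : f ≠ 0 := fun e => h (e ▸ map_zero _)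

/-- divisors of powers of two are prime to series without `μ`-invariant -/
theorem un_dvd {t s f : ℤ_[2]⟦X⟧} {e : ℕ} (ht : t ∣ 2 ^ e) (hs : rd s ≠ 0) (h : t ∣ s * f) : t ∣ f := by
  obtain ⟨i, -, k⟩ := (dvd_prime_pow prime_two e).1 ht
  exact k.dvd.trans (prime_two.pow_dvd_of_dvd_mul_left i (mt rd_zero.2 hs) (k.symm.dvd.trans h))

theorem cancel {t d f : ℤ_[2]⟦X⟧} {e : ℕ} (ht : t ∣ 2 ^ e) (hd : rd d ≠ 0) (h : d ∣ t * f) : d ∣ f := by
  obtain ⟨g, hg⟩ := h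
  obtain ⟨y, rfl⟩ := un_dvd ht hd (hg ▸ dvd_mul_right t f)
  have t0 : t ≠ 0 := ne_zero_of_dvd_ne_zero (pow_ne_zero _ two_ne) ht
  exact ⟨y, mul_left_cancel₀ t0 (by rw [hg]; ring)⟩

/-- **removal of the smoothing factors** -/
theorem smo {d s s' t W W' : ℤ_[2]⟦X⟧} {e e' : ℕ} (hd : rd d ≠ 0) (hs : rd s ≠ 0) (hs' : s' ∣ 2 ^ e)
    (ht : t ∣ 2 ^ e') (h : d ∣ t * W') (r : s' * W = s * W') :
    ∃ α, W = s * α * d ∧ W' = s' * α * d := by
  obtain ⟨β, rfl⟩ := cancel ht hd h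
  obtain ⟨α, rfl⟩ : s' ∣ β := un_dvd hs' (s := s * d) (by rw [map_mul]; exact mul_ne_zero hs hd)
    ⟨W, by rw [r]; ring⟩
  have t0 : s' ≠ 0 := ne_zero_of_dvd_ne_zero (pow_ne_zero _ two_ne) hs'
  exact ⟨α, mul_left_cancel₀ t0 (by rw [r]; ring), by ring⟩

theorem unit_rd {f : ℤ_[2]⟦X⟧} : IsUnit (constantCoeff f) ↔ IsUnit (rd f) := by
  rw [PowerSeries.isUnit_iff_constantCoeff, ← coeff_zero_eq_constantCoeff_apply (rd f), coeff_map,
    coeff_zero_eq_constantCoeff_apply, isUnit_iff_ne_zero, ← IsLocalRing.notMem_maximalIdeal,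
    ← PadicInt.ker_toZMod, RingHom.mem_ker]

/-- **the congruence between two twists** -/
theorem cong {d d' s s' α α' : ℤ_[2]⟦X⟧} (hd : rd d ≠ 0) (hs : rd s ≠ 0)
    (ed : Associated (rd d) (rd d')) (es : Associated (rd s) (rd s'))
    (e : Associated (rd (s * α * d)) (rd (s' * α' * d'))) :
    IsUnit (constantCoeff α) ↔ IsUnit (constantCoeff α') := by
  rw [unit_rd, unit_rd]
  simp only [map_mul] at e
  exact ((e.of_mul_right ed hd).of_mul_left es hs).isUnit_iff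

/-- orders are seen at a finite level -/
theorem asc_of {F : Type} [Field F] {f g : F⟦X⟧} {J : ℕ} (hf : ¬ X ^ J ∣ f)
    (h1 : ∃ a b, g = a * f + b * X ^ J) (h2 : ∃ a b, f = a * g + b * X ^ J) : Associated f g := by
  obtain ⟨a, b, h1⟩ := h1
  obtain ⟨a', b', h2⟩ := h2
  have k1 : f ∣ X ^ J := (ValuationRing.dvd_total _ _).resolve_left hf
  have k2 : g ∣ X ^ J := (ValuationRing.dvd_total _ _).resolve_left fun k =>
    hf (h2 ▸ dvd_add (k.mul_left _) (dvd_mul_left _ _))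
  exact associated_of_dvd_dvd (h1 ▸ dvd_add (dvd_mul_left _ _) (k1.mul_left _))
    (h2 ▸ dvd_add (dvd_mul_left _ _) (k2.mul_left _))

/-- the whole algebra for one twist -/
theorem alg {ι κ : Type} [Fintype ι] [DecidableEq ι] [Fintype κ] [DecidableEq κ]
    (e : κ ≃ ι ⊕ Fin 2) (Q : Matrix ι κ ℤ_[2]⟦X⟧) {v w w' : κ → ℤ_[2]⟦X⟧} (hv : Q *ᵥ v = 0)
    (hw : Q *ᵥ w = 0) (hw' : Q *ᵥ w' = 0) {C0 : Matrix (Fin 2) κ ℤ_[2]⟦X⟧}
    (hd : rd (st e Q C0).det ≠ 0) {s s' t : ℤ_[2]⟦X⟧} {a a' : ℕ} (hs : rd s ≠ 0) (hs' : s' ∣ 2 ^ a)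
    (ht : t ∣ 2 ^ a') (h : (st e Q C0).det ∣ t * (C0 * cl v w').det)
    (r : s' * (C0 * cl v w).det = s * (C0 * cl v w').det) :
    ∃ α, ∀ C', (C' * cl v w).det = s * α * (st e Q C').det ∧
      (C' * cl v w').det = s' * α * (st e Q C').det := by
  obtain ⟨α, h1, h2⟩ := smo hd hs hs' ht h r
  exact ⟨α, fun C' => ⟨all_C e Q (mul_cl hv hw) (ne_of_rd hd) h1 C',
    all_C e Q (mul_cl hv hw') (ne_of_rd hd) h2 C'⟩⟩

end Vale.Agent.P014T.Ba
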