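import Vale.Agent.P014T.Ba.Lev

/-!
# P014T, block B, abstract algebra (helper67): kernels of matrices modulo `2 ^ j` and minors
-/

set_option linter.all false

noncomputable section

namespace Vale.Agent.P014T.Ba

open Matrix

section gen

variable {R : Type} [CommRing R] {m n : Type} [Fintype n]

/-- the kernel of a matrix -/
def Kr (M : Matrix m n R) : AddSubgroup (n → R) where
  carrier := {v | M *ᵥ v = 0}
  zero_mem' := mulVec_zero _
  add_mem' := fun {a b} ha hb => by
    have ha' : M *ᵥ a = 0 := ha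
    have hb' : M *ᵥ b = 0 := hb
    show M *ᵥ (a + b) = 0
    rw [mulVec_add, ha', hb', add_zero]
  neg_mem' := fun {a} ha => by
    have ha' : M *ᵥ a = 0 := ha
    show M *ᵥ (-a) = 0
    rw [mulVec_neg, ha', neg_zero]

theorem mem_Kr {M : Matrix m n R} {v : n → R} : v ∈ Kr M ↔ M *ᵥ v = 0 := Iff.rfl

variable [DecidableEq n]

theorem snf [IsDomain R] [IsPrincipalIdealRing R] (M : Matrix n n R) (h : M.det ≠ 0) :
    ∃ (P P' : Matrix n n R) (a : n → R), IsUnit P.det ∧ IsUnit P'.det ∧ M * P = P' * diagonal a := by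
  have hf : Function.Injective M.mulVecLin := (injective_iff_map_eq_zero _).2 fun v hv =>
    eq_zero_of_mulVec_eq_zero h hv
  let e := LinearEquiv.ofInjective M.mulVecLin hf
  let b := Pi.basisFun R n
  have hr := e.symm.finrank_eq
  refine ⟨b.toMatrix ((Submodule.smithNormalFormBotBasis b hr).map e.symm),
    b.toMatrix (Submodule.smithNormalFormTopBasis b hr), Submodule.smithNormalFormCoeffs b hr,
    b.isUnit_det _, b.isUnit_det _, ?_⟩
  ext i j
  have h1 := congrFun (Submodule.smithNormalFormBotBasis_def b hr j) i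
  have h2 := congrFun (congrArg Subtype.val
    (e.apply_symm_apply (Submodule.smithNormalFormBotBasis b hr j))) i
  rw [mul_diagonal, mul_comm]
  exact h2.trans h1

theorem kr_unit {M P P' D : Matrix n n R} (hP : IsUnit P.det) (hP' : IsUnit P'.det)
    (e : M * P = P' * D) : Nat.card (Kr M) = Nat.card (Kr D) := by
  have b1 := (isUnit_iff_isUnit_det P).2 hP
  have b2 := (isUnit_iff_isUnit_det P').2 hP'
  refine (Nat.card_congr (Equiv.subtypeEquiv (Equiv.ofBijective (fun v => P *ᵥ v)
    ⟨mulVec_injective_of_isUnit b1, mulVec_surjective_iff_isUnit.2 b1⟩) fun v => ?_)).symm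
  show D *ᵥ v = 0 ↔ M *ᵥ P *ᵥ v = 0
  rw [mulVec_mulVec, e, ← mulVec_mulVec]
  exact ⟨fun h => by rw [h, mulVec_zero],
    fun h => mulVec_injective_of_isUnit b2 (h.trans (mulVec_zero _).symm)⟩

theorem kr_diag (a : n → R) : Nat.card (Kr (diagonal a)) = ∏ i, Nat.card {x : R // a i * x = 0} := by
  rw [← Nat.card_pi]
  refine Nat.card_congr ((Equiv.subtypeEquivRight fun v => ?_).trans Equiv.subtypePiEquivPi)
  rw [mem_Kr, funext_iff]
  exact forall_congr' fun i => by rw [mulVec_diagonal]; rfl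

end gen

theorem card_ann {x : ℤ_[2]} (hx : x ≠ 0) {j : ℕ} (hj : x.valuation ≤ j) :
    Nat.card {y : ZMod (2 ^ j) // PadicInt.toZModPow j x * y = 0} = 2 ^ x.valuation := by
  have h1 := IsAddCyclic.card_nsmulAddMonoidHom_ker (ZMod (2 ^ j)) (2 ^ x.valuation)
  rw [Nat.card_zmod, Nat.gcd_eq_right (pow_dvd_pow 2 hj)] at h1
  rw [← h1]
  refine Nat.card_congr (Equiv.subtypeEquivRight fun y => ?_)
  rw [AddMonoidHom.mem_ker, nsmulAddMonoidHom_apply, nsmul_eq_mul]
  conv_lhs => rw [PadicInt.unitCoeff_spec hx, map_mul, mul_assoc,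
    ((PadicInt.unitCoeff hx).isUnit.map _).mul_right_eq_zero, map_pow, map_natCast]
  push_cast
  rfl

theorem norm_val {x : ℤ_[2]} (hx : x ≠ 0) : ‖x‖ * 2 ^ x.valuation = 1 := by
  rw [PadicInt.norm_eq_zpow_neg_valuation hx, _root_.zpow_neg, zpow_natCast]
  exact inv_mul_cancel₀ (by positivity)

/-- the kernel of a square matrix modulo `2 ^ j` -/
theorem card_kr {n : Type} [Fintype n] [DecidableEq n] (M : Matrix n n ℤ_[2]) {a j : ℕ}
    (h : ‖M.det‖ * 2 ^ a = 1) (hj : a ≤ j) :
    Nat.card (Kr (M.map (PadicInt.toZModPow j))) = 2 ^ a := by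
  have h0 : M.det ≠ 0 := fun h0 => by simp [h0] at h
  obtain ⟨P, P', c, hP, hP', e⟩ := snf M h0
  have ed := congrArg (fun X => ‖det X‖) e
  simp only [det_mul, norm_mul, PadicInt.isUnit_iff.1 hP, PadicInt.isUnit_iff.1 hP', det_diagonal,
    mul_one, one_mul, norm_prod] at ed
  have hc : ∀ i, c i ≠ 0 := fun i hi =>
    h0 (norm_eq_zero.1 (ed.trans (Finset.prod_eq_zero (Finset.mem_univ i) (by simp [hi]))))
  have hp : ∏ i, 2 ^ (c i).valuation = 2 ^ a := by
    have : (∏ i, ‖c i‖) * ∏ i, (2 : ℝ) ^ (c i).valuation = 1 := by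
      rw [← Finset.prod_mul_distrib]
      exact Finset.prod_eq_one fun i _ => norm_val (hc i)
    rw [← ed, ← h] at this
    exact_mod_cast mul_left_cancel₀ (norm_ne_zero_iff.2 h0) this
  have u : ∀ X : Matrix n n ℤ_[2], IsUnit X.det → IsUnit (X.map (PadicInt.toZModPow j)).det :=
    fun X hX => by
      have := hX.map (PadicInt.toZModPow j)
      rwa [RingHom.map_det] at this
  rw [kr_unit (D := diagonal fun i => PadicInt.toZModPow j (c i)) (u P hP) (u P' hP') (by
    rw [← Matrix.map_mul, e, Matrix.map_mul, diagonal_map (map_zero _)]), kr_diag, ← hp]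
  refine Finset.prod_congr rfl fun i _ => card_ann (hc i) (le_trans ?_ hj)
  exact (pow_dvd_pow_iff two_ne_zero (by norm_num)).1
    (hp ▸ Finset.dvd_prod_of_mem _ (Finset.mem_univ i))

section st

variable {R : Type} [CommRing R] {ι κ : Type} [Fintype ι] [DecidableEq ι] [Fintype κ]
  [DecidableEq κ]

/-- two more rows -/
def st (e : κ ≃ ι ⊕ Fin 2) (Q : Matrix ι κ R) (C : Matrix (Fin 2) κ R) : Matrix κ κ R :=
  (fromRows Q C).submatrix e id

variable (e : κ ≃ ι ⊕ Fin 2) (Q : Matrix ι κ R)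

theorem st_mulVec (C : Matrix (Fin 2) κ R) (v : κ → R) :
    st e Q C *ᵥ v = 0 ↔ Q *ᵥ v = 0 ∧ C *ᵥ v = 0 := by
  constructor
  · intro h
    exact ⟨funext fun i => by simpa [st, mulVec] using congrFun h (e.symm (.inl i)),
      funext fun i => by simpa [st, mulVec] using congrFun h (e.symm (.inr i))⟩
  · intro h
    funext k
    obtain ⟨i | i, rfl⟩ := e.symm.surjective k
    · simpa [st, mulVec] using congrFun h.1 i
    · simpa [st, mulVec] using congrFun h.2 i

theorem st_map {S : Type} [CommRing S] (f : R →+* S) (C : Matrix (Fin 2) κ R) :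
    (st e Q C).map f = st e (Q.map f) (C.map f) := by
  ext k l
  obtain ⟨i | i, rfl⟩ := e.symm.surjective k <;> simp [st]

/-- the last two columns of the adjugate -/
def ad (C : Matrix (Fin 2) κ R) : Matrix κ (Fin 2) R :=
  (st e Q C).adjugate.submatrix id fun i => e.symm (.inr i)

theorem Q_ad (C : Matrix (Fin 2) κ R) : Q * ad e Q C = 0 := by
  ext i l
  have := congrFun (congrFun (mul_adjugate (st e Q C)) (e.symm (.inl i))) (e.symm (.inr l))
  simpa [st, ad, mul_apply, one_apply] using this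

theorem C_ad (C : Matrix (Fin 2) κ R) : C * ad e Q C = (st e Q C).det • (1 : Matrix _ _ R) := by
  ext i l
  have := congrFun (congrFun (mul_adjugate (st e Q C)) (e.symm (.inr i))) (e.symm (.inr l))
  simpa [st, ad, mul_apply, one_apply] using this

theorem ad_entry (C : Matrix (Fin 2) κ R) (k : κ) (l : Fin 2) :
    ad e Q C k l = (st e Q (C.updateRow l (Pi.single k 1))).det := by
  rw [ad, submatrix_apply, adjugate_apply]
  refine congrArg det ?_
  ext k' x
  obtain ⟨i | i, rfl⟩ := e.symm.surjective k'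
  · simp [st, updateRow_apply]
  · simp [st, updateRow_apply]

theorem ad_ker (C : Matrix (Fin 2) κ R) {p : Type} (U : Matrix κ p R) (hU : Q * U = 0) :
    ad e Q C * (C * U) = (st e Q C).det • U := by
  have h1 : (st e Q C).adjugate * (st e Q C * U) = (st e Q C).det • U := by
    rw [← Matrix.mul_assoc, adjugate_mul, Matrix.smul_mul, Matrix.one_mul]
  rw [← h1]
  ext k l
  rw [mul_apply, mul_apply, ← e.symm.sum_comp, Fintype.sum_sum_type]
  have : ∀ i, (st e Q C * U) (e.symm (.inl i)) l = 0 := fun i => by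
    simpa [st, mul_apply] using congrFun (congrFun hU i) l
  simp only [this, mul_zero, Finset.sum_const_zero, zero_add]
  exact Finset.sum_congr rfl fun i _ => by simp [st, ad, mul_apply]

theorem det_ad [IsDomain R] (C C' : Matrix (Fin 2) κ R) (h : (st e Q C).det ≠ 0) :
    (C' * ad e Q C).det = (st e Q C').det * (st e Q C).det := by
  let δ := (st e Q C).det
  have h1 : (st e Q C' * (st e Q C).adjugate).submatrix e.symm e.symm =
      fromBlocks (δ • 1) 0 (C' * (st e Q C).adjugate.submatrix id fun i => e.symm (.inl i))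
        (C' * ad e Q C) := by
    ext (i | i) (l | l)
    · have := congrFun (congrFun (mul_adjugate (st e Q C)) (e.symm (.inl i))) (e.symm (.inl l))
      simpa [st, mul_apply, one_apply, δ] using this
    · simpa [st, ad, mul_apply] using congrFun (congrFun (Q_ad e Q C) i) l
    · simp [st, mul_apply]
    · simp [st, ad, mul_apply]
  have h2 := congrArg det h1
  rw [det_submatrix_equiv_self, det_fromBlocks_zero₁₂, det_mul, det_adjugate, det_smul, det_one,
    Fintype.card_congr e, Fintype.card_sum, Fintype.card_fin] at h2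
  refine mul_left_cancel₀ (pow_ne_zero (Fintype.card ι) h) ?_
  rw [mul_one, show Fintype.card ι + 2 - 1 = Fintype.card ι + 1 from rfl] at h2
  rw [← h2]
  ring

/-- the Plücker relation: the wedge of two kernel vectors is proportional to the minors -/
theorem plk [IsDomain R] (U : Matrix κ (Fin 2) R) (hU : Q * U = 0) (C C' : Matrix (Fin 2) κ R) :
    (st e Q C).det * (C' * U).det = (st e Q C').det * (C * U).det := by
  have key : ∀ C C' : Matrix (Fin 2) κ R, (st e Q C).det ≠ 0 →
      (st e Q C).det * (C' * U).det = (st e Q C').det * (C * U).det := fun C C' h => by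
    have h1 := congrArg (fun X => det (C' * X)) (ad_ker e Q C U hU)
    simp only [← Matrix.mul_assoc C', det_mul, det_ad e Q C C' h, Matrix.mul_smul, det_smul,
      Fintype.card_fin] at h1
    refine mul_left_cancel₀ h ?_
    linear_combination -h1
  by_cases h : (st e Q C).det = 0
  · by_cases h' : (st e Q C').det = 0
    · rw [h, h', zero_mul, zero_mul]
    · exact (key C' C h').symm
  · exact key C C' h

/-- a section: `C` is an isomorphism from the kernel of `Q` -/
theorem ex_sec [IsDomain R] {C : Matrix (Fin 2) κ R} (h : (st e Q C).det ≠ 0)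
    (hm : ∀ C', (st e Q C).det ∣ (st e Q C').det) :
    ∃ V : Matrix κ (Fin 2) R, Q * V = 0 ∧ C * V = 1 ∧ (st e Q C).det • V = ad e Q C := by
  choose V hV using fun k l => hm (C.updateRow l (Pi.single k 1))
  have e1 : (st e Q C).det • (Matrix.of V) = ad e Q C := by
    ext k l
    rw [ad_entry, hV]; rfl
  refine ⟨Matrix.of V, smul_right_injective _ h ?_, smul_right_injective _ h ?_, e1⟩
  · show _ • _ = _ • _
    rw [← Matrix.mul_smul, e1, Q_ad, smul_zero]
  · show _ • _ = _ • _
    rw [← Matrix.mul_smul, e1, C_ad]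

theorem card_split {C : Matrix (Fin 2) κ R} {V : Matrix κ (Fin 2) R} (h1 : Q * V = 0)
    (h2 : C * V = 1) : Nat.card (Kr Q) = Nat.card (Kr (st e Q C)) * Nat.card R ^ 2 := by
  have := card_map C.mulVecLin.toAddMonoidHom (Kr Q)
  have e1 : C.mulVecLin.toAddMonoidHom.ker ⊓ Kr Q = Kr (st e Q C) := by
    ext v
    rw [mem_Kr, st_mulVec, and_comm]
    rfl
  have e2 : (Kr Q).map C.mulVecLin.toAddMonoidHom = ⊤ := eq_top_iff.2 fun w _ =>
    ⟨V *ᵥ w, show Q *ᵥ V *ᵥ w = 0 by rw [mulVec_mulVec, h1, zero_mulVec],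
      show C *ᵥ V *ᵥ w = w by rw [mulVec_mulVec, h2, one_mulVec]⟩
  rw [e1, e2, AddSubgroup.card_top, Nat.card_fun, Nat.card_eq_fintype_card (α := Fin 2),
    Fintype.card_fin] at this
  exact this.symm

end st

theorem sp_col {κ : Type} {N : ℕ} [NeZero N] (U : Matrix κ (Fin 2) (ZMod N)) :
    Nat.card (Kr U) * sp (fun k => U k 0) (fun k => U k 1) = N ^ 2 := by
  have := card_map U.mulVecLin.toAddMonoidHom ⊤
  have e2 : (⊤ : AddSubgroup (Fin 2 → ZMod N)).map U.mulVecLin.toAddMonoidHom =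
      AddSubgroup.zmultiples (fun k => U k 0) ⊔ AddSubgroup.zmultiples (fun k => U k 1) := by
    refine le_antisymm ?_ (sup_le ?_ ?_)
    · rintro _ ⟨w, -, rfl⟩
      refine AddSubgroup.mem_sup.2 ⟨_, ⟨(w 0).val, rfl⟩, _, ⟨(w 1).val, rfl⟩, funext fun k => ?_⟩
      show ((w 0).val : ℤ) • U k 0 + ((w 1).val : ℤ) • U k 1 = (U *ᵥ w) k
      simp [mulVec, dotProduct, mul_comm]
    · exact AddSubgroup.zmultiples_le_of_mem ⟨Pi.single 0 1, trivial, funext fun k => by
        show (U *ᵥ _) k = _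
        simp [mulVec, dotProduct]⟩
    · exact AddSubgroup.zmultiples_le_of_mem ⟨Pi.single 1 1, trivial, funext fun k => by
        show (U *ᵥ _) k = _
        simp [mulVec, dotProduct]⟩
  rw [e2, inf_top_eq, AddSubgroup.card_top, Nat.card_fun, Nat.card_zmod,
    Nat.card_eq_fintype_card (α := Fin 2), Fintype.card_fin] at this
  exact this

/-- **the bridge from minors to counts** -/
theorem min {ι κ : Type} [Fintype ι] [DecidableEq ι] [Fintype κ] [DecidableEq κ]
    (e : κ ≃ ι ⊕ Fin 2) (Q : Matrix ι κ ℤ_[2]) (hQ : ∃ C, (st e Q C).det ≠ 0) :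
    ∃ (C : Matrix (Fin 2) κ ℤ_[2]) (V : Matrix κ (Fin 2) ℤ_[2]) (a : ℕ),
      ‖(st e Q C).det‖ * 2 ^ a = 1 ∧ (∀ C', (st e Q C).det ∣ (st e Q C').det) ∧
      Q * V = 0 ∧ C * V = 1 ∧ (∀ U : Matrix κ (Fin 2) ℤ_[2], Q * U = 0 → U = V * (C * U)) ∧
      (∀ j, a ≤ j → Nat.card (Kr (Q.map (PadicInt.toZModPow j))) = 4 ^ j * 2 ^ a) ∧
      (∀ j, ∀ v ∈ Kr (Q.map (PadicInt.toZModPow j)), 2 ^ a • v =
        V.map (PadicInt.toZModPow j) *ᵥ C.map (PadicInt.toZModPow j) *ᵥ (2 ^ a • v)) ∧
      ∀ (H : Matrix (Fin 2) (Fin 2) ℤ_[2]) (b j : ℕ), ‖H.det‖ * 2 ^ b = 1 → b ≤ j →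
        sp (fun k => PadicInt.toZModPow j ((V * H) k 0))
          (fun k => PadicInt.toZModPow j ((V * H) k 1)) * 2 ^ b = 4 ^ j := by
  classical
  have hex : ∃ a, ∃ C, (st e Q C).det ≠ 0 ∧ (st e Q C).det.valuation = a :=
    ⟨_, hQ.choose, hQ.choose_spec, rfl⟩
  obtain ⟨C, h0, ha⟩ := Nat.find_spec hex
  have hm : ∀ C', (st e Q C).det ∣ (st e Q C').det := fun C' => by
    by_cases h' : (st e Q C').det = 0
    · rw [h']; exact dvd_zero _
    · have := Nat.find_min' hex ⟨C', h', rfl⟩
      rw [← ha, ← PadicInt.mem_span_pow_iff_le_valuation _ h', Ideal.mem_span_singleton] at this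
      rw [PadicInt.unitCoeff_spec h0]
      exact (PadicInt.unitCoeff h0).isUnit.mul_left_dvd.2 this
  obtain ⟨V, v1, v2, v3⟩ := ex_sec e Q h0 hm
  have f1 : ∀ j, Q.map (PadicInt.toZModPow j) * V.map (PadicInt.toZModPow j) = 0 := fun j => by
    rw [← Matrix.map_mul, v1, Matrix.map_zero _ (map_zero _)]
  have f2 : ∀ j, C.map (PadicInt.toZModPow j) * V.map (PadicInt.toZModPow j) = 1 := fun j => by
    rw [← Matrix.map_mul, v2, Matrix.map_one _ (map_zero _) (map_one _)]
  refine ⟨C, V, _, norm_val h0, hm, v1, v2, fun U hU => smul_right_injective _ h0 ?_,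
    fun j hj => ?_, fun j v hv => ?_, fun H b j hb hj => ?_⟩
  · show _ • _ = _ • _
    rw [← Matrix.smul_mul, v3, ad_ker e Q C U hU]
  · rw [card_split e _ (f1 j) (f2 j), ← st_map, card_kr _ (norm_val h0) hj, Nat.card_zmod,
      ← pow_mul, mul_comm j, pow_mul, mul_comm]
    rfl
  · set π := PadicInt.toZModPow (p := 2) j
    have h1 : st e (Q.map π) (C.map π) *ᵥ (v - V.map π *ᵥ C.map π *ᵥ v) = 0 :=
      (st_mulVec e _ _ _).2 ⟨by
        rw [mulVec_sub, mem_Kr.1 hv, mulVec_mulVec, f1, zero_mulVec, sub_zero], by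
        rw [mulVec_sub, mulVec_mulVec, f2, one_mulVec, sub_self]⟩
    have h2 := congrArg (fun w => (st e (Q.map π) (C.map π)).adjugate *ᵥ w) h1
    simp only [mulVec_mulVec, adjugate_mul, mulVec_zero, smul_mulVec, one_mulVec] at h2
    rw [← st_map, ← RingHom.mapMatrix_apply, ← RingHom.map_det, PadicInt.unitCoeff_spec h0, map_mul,
      mul_smul, ((PadicInt.unitCoeff h0).isUnit.map _).smul_eq_zero, map_pow, map_natCast,
      ← Nat.cast_pow, Nat.cast_smul_eq_nsmul, smul_sub, sub_eq_zero] at h2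
    rw [mulVec_smul, mulVec_smul, mulVec_mulVec]
    exact h2
  · have h1 := sp_col ((V * H).map (PadicInt.toZModPow j))
    have h2 : Kr ((V * H).map (PadicInt.toZModPow j)) = Kr (H.map (PadicInt.toZModPow j)) := by
      ext w
      rw [mem_Kr, mem_Kr, Matrix.map_mul, ← mulVec_mulVec]
      refine ⟨fun h => ?_, fun h => by rw [h, mulVec_zero]⟩
      have := congrArg (fun x => C.map (PadicInt.toZModPow j) *ᵥ x) h
      simpa only [mulVec_mulVec, ← Matrix.mul_assoc, f2, Matrix.one_mul, mulVec_zero] using this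
    rw [h2, card_kr H hb hj, ← pow_mul, mul_comm j, pow_mul, mul_comm] at h1
    exact h1

end Vale.Agent.P014T.Ba
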