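import Vale.Agent.P014T.Ba.Min
import Vale.Agent.P004F.Alg.Fit

/-!
# P014T, block B, abstract algebra (helper67): specialisation of `W = α d` at `X = 0`
-/

set_option linter.all false

noncomputable section

namespace Vale.Agent.P014T.Ba

open Matrix Submodule Set

theorem sp_map {Z Z' : Type} [AddCommGroup Z] [AddCommGroup Z'] (f : Z →+ Z')
    (hf : Function.Injective f) (a b : Z) : sp (f a) (f b) = sp a b := by
  unfold sp
  rw [← AddMonoidHom.map_zmultiples, ← AddMonoidHom.map_zmultiples, ← AddSubgroup.map_sup,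
    AddSubgroup.card_map_of_injective hf]

section gen

variable {R : Type} [CommRing R] {ι κ : Type} [Fintype ι] [DecidableEq ι] [Fintype κ]
  [DecidableEq κ]

/-- the matrix with two given columns -/
def cl (v w : κ → R) : Matrix κ (Fin 2) R := .of fun k i => ![v, w] i k

theorem det_cl (a : Fin 2 → κ → R) (v w : κ → R) : (Matrix.of a * cl v w).det =
    (a 0 ⬝ᵥ v) * (a 1 ⬝ᵥ w) - (a 1 ⬝ᵥ v) * (a 0 ⬝ᵥ w) := by
  rw [det_fin_two, mul_comm (a 1 ⬝ᵥ v)]
  rfl

theorem mul_cl {Q : Matrix ι κ R} {v w : κ → R} (hv : Q *ᵥ v = 0) (hw : Q *ᵥ w = 0) :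
    Q * cl v w = 0 := by
  ext i l
  fin_cases l
  · exact congrFun hv i
  · exact congrFun hw i

theorem cl_mulVec (v w : κ → R) (s : Fin 2 → R) : cl v w *ᵥ s = s 0 • v + s 1 • w := by
  funext k
  simp [cl, mulVec, dotProduct, mul_comm]

theorem pr_st (e : κ ≃ ι ⊕ Fin 2) (Q : Matrix ι κ R) (C : Matrix (Fin 2) κ R) :
    P004F.Alg.Pr ((κ → R) ⧸ (span R (range Q) ⊔ span R (range C))) (st e Q C).det := by
  have h := P004F.Alg.pr_free (Pi.basisFun R κ) (fun k => st e Q C k)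
  have e1 : span R (range fun k => st e Q C k) = span R (range Q) ⊔ span R (range C) := by
    rw [← span_union]
    refine congrArg _ (Set.ext fun v => ⟨?_, ?_⟩)
    · rintro ⟨k, rfl⟩
      obtain ⟨i | i, rfl⟩ := e.symm.surjective k
      · exact Or.inl ⟨i, funext fun l => by simp [st]⟩
      · exact Or.inr ⟨i, funext fun l => by simp [st]⟩
    · rintro (⟨i, rfl⟩ | ⟨i, rfl⟩)
      · exact ⟨e.symm (.inl i), funext fun l => by simp [st]⟩
      · exact ⟨e.symm (.inr i), funext fun l => by simp [st]⟩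
  have e2 : (Pi.basisFun R κ).det (fun k => st e Q C k) = (st e Q C).det := by
    rw [Module.Basis.det_apply, ← det_transpose]
    rfl
  rw [e1, e2] at h
  exact h

theorem ex_C [Nontrivial R] (U : Matrix κ (Fin 2) R) (h : ∀ s, U *ᵥ s = 0 → s = 0) :
    ∃ C : Matrix (Fin 2) κ R, (C * U).det ≠ 0 := by
  by_contra hn
  push Not at hn
  have h1 : ∀ k l, U k 0 * U l 1 - U k 1 * U l 0 = 0 := fun k l => by
    have := hn (.of ![Pi.single k 1, Pi.single l 1])
    simpa [det_fin_two, mul_apply, Pi.single_apply] using this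
  have h2 : ∀ l, ![U l 1, -U l 0] = 0 := fun l => h _ (funext fun k => by
    have := h1 k l
    simp only [mulVec, dotProduct, Fin.sum_univ_two, cons_val_zero, cons_val_one, Pi.zero_apply]
    linear_combination this)
  have h3 := h ![1, 0] (funext fun k => by
    have := congrFun (h2 k) 1
    simpa [mulVec, dotProduct] using this)
  simpa using congrFun h3 0

theorem all_C [IsDomain R] (e : κ ≃ ι ⊕ Fin 2) (Q : Matrix ι κ R) {U : Matrix κ (Fin 2) R}
    (hU : Q * U = 0) {C0 : Matrix (Fin 2) κ R} (h0 : (st e Q C0).det ≠ 0) {α : R}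
    (h : (C0 * U).det = α * (st e Q C0).det) (C : Matrix (Fin 2) κ R) :
    (C * U).det = α * (st e Q C).det := by
  have := plk e Q U hU C0 C
  rw [h] at this
  exact mul_left_cancel₀ h0 (by linear_combination this)

end gen

/-- `W = α d` over `ℤ₂` in terms of counts -/
theorem cnt_of {ι κ : Type} [Fintype ι] [DecidableEq ι] [Fintype κ] [DecidableEq κ]
    (e : κ ≃ ι ⊕ Fin 2) (Q : Matrix ι κ ℤ_[2]) {v w : κ → ℤ_[2]} (hv : Q *ᵥ v = 0)
    (hw : Q *ᵥ w = 0) (ind : ∀ s t : ℤ_[2], s • v + t • w = 0 → s = 0 ∧ t = 0) {α : ℤ_[2]}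
    (h : ∀ C, (C * cl v w).det = α * (st e Q C).det) :
    α ≠ 0 ∧ ∃ a : ℕ, (∀ j, a ≤ j → Nat.card (Kr (Q.map (PadicInt.toZModPow j))) = 4 ^ j * 2 ^ a) ∧
      ∀ j, a + α.valuation ≤ j →
        sp (fun k => PadicInt.toZModPow j (v k)) (fun k => PadicInt.toZModPow j (w k)) *
          Nat.card (Kr (Q.map (PadicInt.toZModPow j))) * 2 ^ α.valuation = 16 ^ j := by
  obtain ⟨C1, h1⟩ := ex_C (cl v w) fun s hs => by
    obtain ⟨a, b⟩ := ind _ _ ((cl_mulVec v w s).symm.trans hs)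
    funext i
    fin_cases i
    · exact a
    · exact b
  rw [h] at h1
  have hα := left_ne_zero_of_mul h1
  obtain ⟨C, V, a, ha, -, -, -, hU, hc, -, hs⟩ := min e Q ⟨C1, right_ne_zero_of_mul h1⟩
  refine ⟨hα, a, hc, fun j hj => ?_⟩
  have := hs (C * cl v w) (a + α.valuation) j (by
    rw [h, norm_mul, pow_add]
    calc _ = (‖(st e Q C).det‖ * 2 ^ a) * (‖α‖ * 2 ^ α.valuation) := by ring
      _ = 1 := by rw [ha, norm_val hα, mul_one]) hj
  rw [← hU _ (mul_cl hv hw)] at this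
  rw [hc j (by omega), show (16 : ℕ) = 4 * 4 from rfl, mul_pow]
  calc _ = sp (fun k => PadicInt.toZModPow j (cl v w k 0))
        (fun k => PadicInt.toZModPow j (cl v w k 1)) * 2 ^ (a + α.valuation) * 4 ^ j := by
        rw [pow_add]; show sp _ _ * _ * _ = sp _ _ * _ * _; ring_nf; rfl
    _ = _ := by rw [this]

/-- **specialisation**: `W x = α d` over a domain `Λ`, read through `f : Λ → ℤ₂` -/
theorem spq {Λ ι κ : Type} [CommRing Λ] [IsDomain Λ] [Fintype ι] [DecidableEq ι] [Fintype κ]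
    [DecidableEq κ] (f : Λ →+* ℤ_[2]) (hf : Function.Surjective f) (e : κ ≃ ι ⊕ Fin 2)
    (Q : Matrix ι κ Λ) {v w : κ → Λ} (hv : Q *ᵥ v = 0) (hw : Q *ᵥ w = 0) {x : Fin 2 → κ → Λ}
    {d α : Λ} (hd : P004F.Alg.Pr ((κ → Λ) ⧸ (span Λ (range Q) ⊔ span Λ (range x))) d) (d0 : d ≠ 0)
    (h : (x 0 ⬝ᵥ v) * (x 1 ⬝ᵥ w) - (x 1 ⬝ᵥ v) * (x 0 ⬝ᵥ w) = α * d)
    (ind : ∀ s t : ℤ_[2], (∀ k, s * f (v k) + t * f (w k) = 0) → s = 0 ∧ t = 0) :
    f α ≠ 0 ∧ ∃ a : ℕ, (∀ j, a ≤ j →
      Nat.card (Kr (Q.map ((PadicInt.toZModPow j).comp f))) = 4 ^ j * 2 ^ a) ∧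
      ∀ j, a + (f α).valuation ≤ j →
        sp (fun k => PadicInt.toZModPow j (f (v k))) (fun k => PadicInt.toZModPow j (f (w k))) *
          Nat.card (Kr (Q.map ((PadicInt.toZModPow j).comp f))) * 2 ^ (f α).valuation = 16 ^ j := by
  have p := pr_st e Q (Matrix.of x)
  obtain ⟨y, hy⟩ : Associated d (st e Q (Matrix.of x)).det :=
    associated_of_dvd_dvd (hd.dvd p.dt) (p.dvd hd.dt)
  have h0 : (st e Q (Matrix.of x)).det ≠ 0 := hy ▸ mul_ne_zero d0 y.ne_zero
  have h1 := all_C e Q (mul_cl hv hw) h0 (α := α * (y⁻¹ : Λˣ)) (by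
    rw [det_cl, h, ← hy, mul_comm d, ← mul_assoc, Units.inv_mul_cancel_right])
  have hm : ∀ z : κ → Λ, Q *ᵥ z = 0 → Q.map f *ᵥ (fun k => f (z k)) = 0 := fun z hz =>
    funext fun i => by
      have := RingHom.map_mulVec f Q z i
      rw [hz, Pi.zero_apply, map_zero] at this
      exact this.symm
  obtain ⟨a0, a, b1, b2⟩ := cnt_of e (Q.map f) (hm v hv) (hm w hw)
    (fun s t hst => ind s t fun k => congrFun hst k) (α := f (α * (y⁻¹ : Λˣ))) fun C => by
      choose g hg using hf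
      have e1 : (C.map g).map f = C := Matrix.ext fun i k => hg _
      have e2 : cl (fun k => f (v k)) (fun k => f (w k)) = (cl v w).map f := by
        ext k i; fin_cases i <;> rfl
      have := congrArg f (h1 (C.map g))
      rwa [map_mul, RingHom.map_det, RingHom.map_det, RingHom.mapMatrix_apply,
        RingHom.mapMatrix_apply, Matrix.map_mul, st_map, e1, ← e2] at this
  have n0 : f α ≠ 0 := fun h => a0 (by rw [map_mul, h, zero_mul])
  have ev : (f (α * (y⁻¹ : Λˣ))).valuation = (f α).valuation := by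
    have c1 := norm_val a0
    have c2 := norm_val n0
    rw [map_mul, norm_mul, PadicInt.isUnit_iff.1 ((y⁻¹).isUnit.map f), mul_one, ← c2,
      ← map_mul] at c1
    have := mul_left_cancel₀ (norm_ne_zero_iff.2 n0) c1
    exact Nat.pow_right_injective (le_refl 2) (by exact_mod_cast this)
  rw [ev] at b2
  exact ⟨n0, a, b1, b2⟩

end Vale.Agent.P014T.Ba
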