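import Vale.Agent.P014T.Pp.Rn0
import Vale.Agent.P014T.Ba.Spq
import Vale.Agent.P004F.Pat.Vec

/-! # P014T: the limit of relations between framed cocycles -/

set_option linter.all false

open Matrix Filter PowerSeries Set

noncomputable section

namespace Vale.Agent.P014T.Pp

open Vale.Agent.P022 (GQ)
open Vale.Agent.P004F (La Rj cj mj)
open Vale.Agent.P004F.Pr (ac)
open Vale.Agent.P004F.Pat (U Sy U_ch)
open Pq (Zq)
open Dr (Ch)
open Kq (M2)

namespace Lr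

section level

variable {R : Type} [CommRing R] {a : GQ → M2 R} {T : Finset ℕ} {c : GQ} {gp y : Fin 2 → R}

/-- cohomologous framed cocycles differ by a multiple of `d gp`, up to `2` -/
theorem two (hc : 1 + a c = vecMulVec gp y) {x x' : GQ → Fin 2 → R} (h : x c = 0) (h' : x' c = 0)
    (k : Ch ⊤ a x x') : ∃ l : R, ∀ g, (2 : R) • (x g - x' g) = l • ((a g - 1) *ᵥ gp) := by
  obtain ⟨m, k⟩ := k
  have e : a c *ᵥ m = m := by
    have := k c trivial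
    rw [h, h', sub_self] at this
    exact sub_eq_zero.1 this.symm
  have e2 : (2 : R) • m = (y ⬝ᵥ m) • gp := by
    have := congrArg (· *ᵥ m) hc
    simp only [add_mulVec, one_mulVec, e, vecMulVec_mulVec, op_smul_eq_smul] at this
    rw [two_smul, this]
  refine ⟨y ⬝ᵥ m, fun g => ?_⟩
  rw [k g trivial, ← mulVec_smul, ← e2, mulVec_smul, sub_mulVec, one_mulVec]

variable {I ρ : Type} [Fintype I] {Q : Matrix ρ I R} {u : GQ → Matrix (Fin 2) I R}

/-- relations between cocycles are relations between their columns -/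
theorem col (h : BijOn (fun (v : I → R) g => ac (u g) v) {v | ac Q v = 0} (Zq R T a c))
    {v w w' : I → R} (hv : Q *ᵥ v = 0) (hw : Q *ᵥ w = 0) (hw' : Q *ᵥ w' = 0) {α β l : R}
    (k : ∀ g, α • (u g *ᵥ w) = β • (u g *ᵥ w') + l • (u g *ᵥ v)) : α • w = β • w' + l • v :=
  h.injOn (show Q *ᵥ _ = 0 by rw [mulVec_smul, hw, smul_zero])
    (show Q *ᵥ _ = 0 by rw [mulVec_add, mulVec_smul, mulVec_smul, hw', hv, smul_zero, smul_zero,
      add_zero])
    (funext fun g => show u g *ᵥ _ = u g *ᵥ _ by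
      rw [mulVec_add, mulVec_smul, mulVec_smul, mulVec_smul, k])

theorem lev (h : BijOn (fun (v : I → R) g => ac (u g) v) {v | ac Q v = 0} (Zq R T a c))
    (hc : 1 + a c = vecMulVec gp y) {v w w' : I → R} (hv : Q *ᵥ v = 0)
    (hu : ∀ g, u g *ᵥ v = (a g - 1) *ᵥ gp) (hw : Q *ᵥ w = 0) (hw' : Q *ᵥ w' = 0)
    (k : Ch ⊤ a (fun g => u g *ᵥ w) fun g => u g *ᵥ w') :
    ∃ l : R, (2 : R) • w = (2 : R) • w' + l • v := by
  obtain ⟨l, e⟩ := two hc (h.mapsTo hw).2.2.2 (h.mapsTo hw').2.2.2 k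
  exact ⟨l, col h hv hw hw' fun g => by rw [hu, ← e, smul_sub, add_sub_cancel]⟩

theorem det_rel [DecidableEq I] {v w w' : I → R} {α β l : R} (k : α • w = β • w' + l • v)
    (C : Matrix (Fin 2) I R) : α * (C * Ba.cl v w).det = β * (C * Ba.cl v w').det := by
  have e : ∀ i, α * (C i ⬝ᵥ w) = β * (C i ⬝ᵥ w') + l * (C i ⬝ᵥ v) := fun i => by
    simpa only [dotProduct_smul, dotProduct_add, smul_eq_mul] using congrArg (C i ⬝ᵥ ·) k
  have h : ∀ x, (C * Ba.cl v x).det = (C 0 ⬝ᵥ v) * (C 1 ⬝ᵥ x) - (C 1 ⬝ᵥ v) * (C 0 ⬝ᵥ x) :=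
    fun x => Ba.det_cl C v x
  rw [h, h]
  linear_combination (C 0 ⬝ᵥ v) * e 1 - (C 1 ⬝ᵥ v) * e 0

end level

variable {I : Type} {R : ℕ → Type} [∀ j, CommRing (R j)] {p : ∀ j, La →+* R j} (hp : Sy p)

/-- the relation in the limit -/
theorem lim {v w w' : ∀ j, I → R j} {α β : ∀ j, R j}
    (k : ∀ᶠ j in U, ∃ l : R j, α j • w j = β j • w' j + l • v j) :
    ∃ l : La, hp.ur α • hp.uv w = hp.ur β • hp.uv w' + l • hp.uv v := by
  obtain ⟨l, e⟩ := U_ch k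
  exact ⟨hp.ur l, by rw [← hp.uv_smul, ← hp.uv_smul, ← hp.uv_smul, ← hp.uv_add]; exact hp.uv_ae e⟩

theorem um_cl (v w : ∀ j, I → R j) :
    hp.um (fun j => Ba.cl (v j) (w j)) = Ba.cl (hp.uv v) (hp.uv w) :=
  Matrix.ext fun a i => by fin_cases i <;> rfl

theorem cl_tr {R : Type} (V : Matrix I (Fin 2) R) : Ba.cl (Vᵀ 0) (Vᵀ 1) = V :=
  Matrix.ext fun a i => by fin_cases i <;> rfl

theorem um_eq (V : ∀ j, Matrix I (Fin 2) (R j)) :
    hp.um V = Ba.cl (hp.uv fun j => (V j)ᵀ 0) (hp.uv fun j => (V j)ᵀ 1) :=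
  Matrix.ext fun a i => by fin_cases i <;> rfl

/-- **the determinants in the limit** -/
theorem lim_det [Fintype I] [DecidableEq I] {v w w' : ∀ j, I → R j} {α β : ∀ j, R j}
    (k : ∀ᶠ j in U, ∃ l : R j, α j • w j = β j • w' j + l • v j) (C : Matrix (Fin 2) I La) :
    hp.ur α * (C * Ba.cl (hp.uv v) (hp.uv w)).det =
      hp.ur β * (C * Ba.cl (hp.uv v) (hp.uv w')).det :=
  (lim hp k).elim fun _ e => det_rel e C

/-- complex conjugation at level `j` -/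
theorem cjj {b : Bs} (t : Tw b) (j : ℕ) : ∃ y, 1 + t.a j b.c = vecMulVec (cj _ ∘ b.gp) y := by
  obtain ⟨y, e⟩ := b.cj
  refine ⟨cj _ ∘ y, ?_⟩
  rw [t.a_eq, t.hΨ, b.εc, (t.tq j).cj _ b.cc, ZMod.val_zero, pow_zero, map_one, one_mul, one_smul]
  have := congrArg (cj (j + 1)).mapMatrix e
  rw [map_add, map_one] at this
  exact this.trans (Matrix.ext fun i k => (cj (j + 1)).map_mul _ _)

end Lr

/-- **cohomologous columns have the same determinant in the limit**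
(`BijOn ..` is `t.Pn j (Q j) (u j) _`) -/
theorem lrl {b : Bs} (t : Tw b) {r : ℕ} {Q : ∀ j, Matrix (Fin r) (Fin (r + 2)) (Rj (j + 1))}
    {u : ∀ j, GQ → Matrix (Fin 2) (Fin (r + 2)) (Rj (j + 1))}
    {v w w' : ∀ j, Fin (r + 2) → Rj (j + 1)}
    (h : ∀ᶠ j in U, (∀ (M : Type) [AddCommGroup M] [Module (Rj (j + 1)) M],
      BijOn (fun (v : Fin (r + 2) → M) g => ac (u j g) v) {v | ac (Q j) v = 0}
        (Zq M (b.S ∪ t.T j) (t.a j) b.c)) ∧ Q j *ᵥ v j = 0 ∧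
      (∀ g, u j g *ᵥ v j = (t.a j g - 1) *ᵥ (cj _ ∘ b.gp)) ∧ Q j *ᵥ w j = 0 ∧ Q j *ᵥ w' j = 0 ∧
      Ch ⊤ (t.a j) (fun g => u j g *ᵥ w j) fun g => u j g *ᵥ w' j)
    (D : Matrix (Fin 2) (Fin (r + 2)) La) :
    (D * Ba.cl (Sy.succ.uv v) (Sy.succ.uv w)).det = (D * Ba.cl (Sy.succ.uv v) (Sy.succ.uv w')).det := by
  have e := Lr.lim_det Sy.succ (α := fun _ => 2) (β := fun _ => 2) (h.mono fun j e =>
    (Lr.cjj t j).elim fun _ hc => Lr.lev (e.1 _) hc e.2.1 e.2.2.1 e.2.2.2.1 e.2.2.2.2.1 e.2.2.2.2.2) D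
  refine mul_left_cancel₀ (fun z => ?_) e
  have z2 : (C (2 : ℤ_[2]) : La) = C 0 := by
    rw [map_ofNat, map_zero]
    exact (map_ofNat Sy.succ.ur 2).symm.trans z
  exact two_ne_zero (C_injective z2)

end Vale.Agent.P014T.Pp
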