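import Mathlib

/-! # P014T, block B: pairs which are congruent modulo two -/

set_option autoImplicit false
set_option linter.all false

noncomputable section

namespace Vale.Agent.P014T.Ba.Tt

variable (R : Type) [CommRing R]

/-- **the fibre product** -/
def Fp : Subring (R × R) where
  carrier := {x | 2 ∣ x.1 - x.2}
  mul_mem' {x y} a b := by
    show 2 ∣ x.1 * y.1 - x.2 * y.2
    rw [show x.1 * y.1 - x.2 * y.2 = (x.1 - x.2) * y.1 + x.2 * (y.1 - y.2) by ring]
    exact dvd_add (a.mul_right _) (b.mul_left _)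
  one_mem' := by simp
  add_mem' {x y} a b := by
    show 2 ∣ x.1 + y.1 - (x.2 + y.2)
    rw [add_sub_add_comm]
    exact dvd_add a b
  zero_mem' := by simp
  neg_mem' {x} a := by
    show 2 ∣ -x.1 - -x.2
    rw [neg_sub_neg, ← dvd_neg, neg_sub]
    exact a

def p1 : Fp R →+* R := (RingHom.fst R R).comp (Fp R).subtype

def p2 : Fp R →+* R := (RingHom.snd R R).comp (Fp R).subtype

variable {R}

theorem p12 (x : Fp R) : 2 ∣ p1 R x - p2 R x := x.2

theorem fp_ext {x y : Fp R} (a : p1 R x = p1 R y) (b : p2 R x = p2 R y) : x = y :=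
  Subtype.ext (Prod.ext a b)

/-- an element -/
def pr (x y : R) (h : 2 ∣ x - y) : Fp R := ⟨(x, y), h⟩

/-- a pair of ring homomorphisms -/
def rh {A : Type} [CommRing A] (f g : A →+* R) (h : ∀ x, 2 ∣ f x - g x) : A →+* Fp R :=
  (f.prod g).codRestrict _ h

/-- the diagonal -/
def dg {A : Type} [CommRing A] (f : A →+* R) : A →+* Fp R := rh f f fun _ => by simp

/-- a pair of characters -/
def mh {G : Type} [Monoid G] (f g : G →* R) (h : ∀ x, 2 ∣ f x - g x) : G →* Fp R :=
  (f.prod g).codRestrict _ h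

theorem fp_nil {x : Fp R} (a : IsNilpotent (p1 R x)) (b : IsNilpotent (p2 R x)) : IsNilpotent x := by
  obtain ⟨m, a⟩ := a
  obtain ⟨n, b⟩ := b
  exact ⟨m + n, fp_ext (by rw [map_pow, pow_add, a, zero_mul, map_zero])
    (by rw [map_pow, pow_add, b, mul_zero, map_zero])⟩

theorem res_eq (π : R →+* ZMod 2) (x : Fp R) : π (p2 R x) = π (p1 R x) := by
  obtain ⟨y, e⟩ := p12 x
  rw [eq_comm, ← sub_eq_zero, ← map_sub, e, map_mul, map_ofNat, show (2 : ZMod 2) = 0 from rfl, zero_mul]

theorem fp_loc (π : R →+* ZMod 2) (h : ∀ x, π x = 0 → IsNilpotent x) : IsLocalRing (Fp R) :=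
  have := (π.comp (p1 R)).domain_nontrivial
  have k (x : Fp R) (e : π (p1 R x) = 0) : IsNilpotent x :=
    fp_nil (h _ e) (h _ ((res_eq π x).trans e))
  .of_isUnit_or_isUnit_one_sub_self fun x =>
    ((by decide : ∀ y : ZMod 2, 1 - y = 0 ∨ y = 0) (π (p1 R x))).imp
      (fun e => by simpa using (k (1 - x) (by simpa using e)).isUnit_one_sub) fun e =>
        (k x e).isUnit_one_sub

end Vale.Agent.P014T.Ba.Tt
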