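import Vale.Agent.P014T.Ba.Tw0
import Vale.Agent.P014T.Ba.Fp
import Vale.Agent.P014T.Pp.Pzx

/-! # P014T, block B: congruent presentations of congruent towers -/

set_option autoImplicit false
set_option linter.all false

open Matrix Set

noncomputable section

namespace Vale.Agent.P014T.Ba.Tt

open Vale.Agent.P022 (GQ)
open Vale.Agent.P004F (M2 Rj cj)
open Vale.Agent.P004F.Pat (rk)
open Pq (Zq Gd)
open Dr (Hm Cd Hm_open Hm_le aa_eq_one)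
open Pp

section

variable {R : Type} [CommRing R] {T : Finset ℕ} {c : GQ} {a a' : GQ → M2 R}

theorem mv_ext {s k : Type} [Fintype k] {B : Matrix s k (Fp R)} {v : k → Fp R} {x : s → Fp R}
    (h : B.map (p1 R) *ᵥ (p1 R ∘ v) = p1 R ∘ x) (h' : B.map (p2 R) *ᵥ (p2 R ∘ v) = p2 R ∘ x) :
    B *ᵥ v = x := funext fun i => fp_ext ((RingHom.map_mulVec ..).trans (congrFun h i))
      ((RingHom.map_mulVec ..).trans (congrFun h' i))

theorem m_ext {B C : M2 (Fp R)} (h : B.map (p1 R) = C.map (p1 R)) (h' : B.map (p2 R) = C.map (p2 R)) :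
    B = C := Matrix.ext fun i k => fp_ext (congrFun₂ h i k) (congrFun₂ h' i k)

/-- the pair of actions -/
def pa (h : ∀ g i k, 2 ∣ a g i k - a' g i k) (g : GQ) : M2 (Fp R) := .of fun i k => pr _ _ (h g i k)

variable (h : ∀ g i k, 2 ∣ a g i k - a' g i k)

theorem gd_pa (G : Gd ⊤ T a) (G' : Gd ⊤ T a') : Gd ⊤ T (pa h) := by
  have k {g : GQ} (e : a g = 1) (e' : a' g = 1) : pa h g = 1 :=
    m_ext (e.trans (Matrix.map_one _ (map_zero _) (map_one _)).symm)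
      (e'.trans (Matrix.map_one _ (map_zero _) (map_one _)).symm)
  obtain ⟨W, o, l⟩ := G.lc
  obtain ⟨W', o', l'⟩ := G'.lc
  exact ⟨G.opn, G.nrm, G.pr, k G.one G'.one, fun g m g' m' =>
    m_ext (by rw [Matrix.map_mul]; exact G.mul g m g' m') (by rw [Matrix.map_mul]; exact G'.mul g m g' m'),
    ⟨W ⊓ W', o.inter o', fun w m n => k (l w m n.1) (l' w m n.2)⟩,
    fun g m n => k (G.unr g m n) (G'.unr g m n)⟩

theorem zq_pa {x x' : GQ → Fin 2 → R} (z : x ∈ Zq R T a c) (z' : x' ∈ Zq R T a' c)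
    (e : ∀ g i, 2 ∣ x g i - x' g i) : (fun g i => pr _ _ (e g i)) ∈ Zq (Fp R) T (pa h) c := by
  have k {g : GQ} (a : x g = 0) (a' : x' g = 0) : (fun i => pr _ _ (e g i)) = 0 :=
    funext fun i => fp_ext (congrFun a i) (congrFun a' i)
  obtain ⟨z1, ⟨W, o, l⟩, z3, z4⟩ := z
  obtain ⟨y1, ⟨W', o', l'⟩, y3, y4⟩ := z'
  refine ⟨fun g g' => ?_, ⟨W ⊓ W', o.inter o', fun w n => k (l w n.1) (l' w n.2)⟩,
    fun g n => k (z3 g n) (y3 g n), k z4 y4⟩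
  refine eq_add_of_sub_eq' (mv_ext ?_ ?_).symm
  exacts [(sub_eq_of_eq_add' (z1 g g')).symm, (sub_eq_of_eq_add' (y1 g g')).symm]

theorem cob_mem (G : Gd ⊤ T a) {p : Fin 2 → R} (fix : a c *ᵥ p = p) :
    (fun g => (a g - 1) *ᵥ p) ∈ Zq R T a c :=
  ⟨fun g g' => by
    show _ *ᵥ _ = _ *ᵥ _ + a g *ᵥ _ *ᵥ _
    rw [mulVec_mulVec, ← add_mulVec, G.mul g trivial g' trivial, mul_sub_one, sub_add_sub_cancel'],
    G.lc.imp fun W e => ⟨e.1, fun w a => by simp [e.2 w trivial a]⟩,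
    fun g a => by simp [G.unr g trivial a], by simp only [sub_mulVec, fix, one_mulVec, sub_self]⟩

end

variable {b b' : Bs}

theorem gd_cd (t : Tw b) {D : ℕ} (D0 : D ≠ 0) (cd : Cd D b.ε) (j : ℕ) :
    Gd ⊤ (b.S ∪ t.T j) (t.a j) := by
  refine ⟨isOpen_univ, inferInstance, fun l m => (Finset.mem_union.1 m).elim (b.pr l)
    Nat.prime_of_mem_primeFactors, map_one _, fun g _ h _ => map_mul _ g h,
    ⟨(b.ρ (t.N j)).ker ⊓ (Hm D ⊓ Hm (t.c j)), (b.lc _).inter ((Hm_open D0).inter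
      (Hm_open (t.tq j).sq.ne_zero)), fun g _ m => aa_eq_one m.1 ?_⟩, fun g _ ⟨l, m, P, o, i⟩ => ?_⟩
  · rw [t.hΨ, cd g m.2.1, (t.tq j).ker g m.2.2]
    simp
  · rw [Finset.mem_coe, Finset.mem_union, G0.mem_T o.1, not_or, not_or] at m
    rw [t.a_eq, t.hΨ, (b.unr l P g o m.1 i).1, (b.unr l P g o m.1 i).2, (t.tq j).ine o m.2.1 i]
    simp

/-- **congruent presentations** -/
theorem prs0 (t : Tw b) (t' : Tw b') {D D' : ℕ} (D0 : D ≠ 0) (D1 : D' ≠ 0) (cd : Cd D b.ε)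
    (cd' : Cd D' b'.ε) (hS : b'.S = b.S) (hc : b'.c = b.c) (hg : b'.gp = b.gp)
    (hT : ∀ j, t'.T j = t.T j) (h : ∀ j g i k, 2 ∣ t.a j g i k - t'.a j g i k) :
    ∃ r₀ : ℕ, ∀ j, ∃ r ≤ r₀, ∃ (Q Q' : Matrix (Fin r) (Fin (r + 2)) (Rj (j + 1)))
      (u u' : GQ → Matrix (Fin 2) (Fin (r + 2)) (Rj (j + 1))),
      Pn (b.S ∪ t.T j) (t.a j) b.c Q u ∧ Pn (b.S ∪ t.T j) (t'.a j) b.c Q' u' ∧
      (∀ i k, 2 ∣ Q i k - Q' i k) ∧
      (fun g => (t.a j g - 1) *ᵥ (cj _ ∘ b.gp)) ∈ Zq (Rj (j + 1)) (b.S ∪ t.T j) (t.a j) b.c ∧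
      (fun g => (t'.a j g - 1) *ᵥ (cj _ ∘ b.gp)) ∈ Zq (Rj (j + 1)) (b.S ∪ t.T j) (t'.a j) b.c ∧
      ∀ x ∈ Zq (Rj (j + 1)) (b.S ∪ t.T j) (t.a j) b.c,
        ∀ x' ∈ Zq (Rj (j + 1)) (b.S ∪ t.T j) (t'.a j) b.c, (∀ g i, 2 ∣ x g i - x' g i) →
          ∃ w w', (Q *ᵥ w = 0 ∧ ∀ g, u g *ᵥ w = x g) ∧ (Q' *ᵥ w' = 0 ∧ ∀ g, u' g *ᵥ w' = x' g) ∧
            ∀ i, 2 ∣ w i - w' i := by
  obtain ⟨B, hB⟩ := Pq.bndq b.gd b.two
  refine ⟨B + 2 * (t.m + 1), fun j => ?_⟩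
  have G := gd_cd t D0 cd j
  have G' := gd_cd t' D1 cd' j
  have f := t'.a_c j
  rw [hS, hT] at G'
  rw [hc, hg] at f
  have := fp_loc (rk j) fun x => Rg.rk_nil
  let π := (rk j).comp (p1 _)
  have res g : (pa (h j) g).map π = (b.r g).map PadicInt.toZMod := t.res j g
  obtain ⟨r, Q, u, -, p, h3⟩ := Pq.presq (π := π) (by simp) (gd_pa (h j) G G')
    (Finset.mem_union_left _ b.two) b.cc (.inr ⟨t.q j, Finset.mem_union_right _
      ((G0.mem_T (t.pq j).1).2 (.inr dvd_rfl)), fun e => (t.pq j).2.1 (e ▸ b.two), _,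
      b.pl.ov _ (t.pq j).1, fun g m => (res g).trans (t.spl j g m)⟩)
  simp only [res] at h3
  refine ⟨r, ?_, Q.map (p1 _), Q.map (p2 _), fun g => (u g).map (p1 _), fun g => (u g).map (p2 _),
    Pn.map p _, Pn.map p _, fun i k => p12 _, cob_mem G (t.a_c j), cob_mem G' f, fun x z x' z' e => ?_⟩
  · have := h3.ge.trans (hB (t.T j) _ b.cc fun l => Nat.prime_of_mem_primeFactors)
    rw [Nat.pow_le_pow_iff_right one_lt_two, Fintype.card_fin] at this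
    have := t.crd_T j
    omega
  · obtain ⟨w, w1, w2⟩ := (p _).surjOn (zq_pa (h j) z z' e)
    have k (f : Fp (Rj (j + 1)) →+* Rj (j + 1)) : Q.map f *ᵥ (f ∘ w) = 0 ∧
        ∀ g, (u g).map f *ᵥ (f ∘ w) = fun i => f (pr _ _ (e g i)) :=
      ⟨funext fun i => (f.map_mulVec ..).symm.trans ((congrArg f (congrFun w1 i)).trans f.map_zero),
        fun g => funext fun i => (f.map_mulVec ..).symm.trans (congrArg f (congrFun₂ w2 g i))⟩
    exact ⟨p1 _ ∘ w, p2 _ ∘ w, k _, k _, fun i => p12 _⟩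

end Vale.Agent.P014T.Ba.Tt
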