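import Vale.Agent.P014T.Ba.Dat

/-!
# P014T, block B, abstract algebra (helper67): divisible parts, corank, the rank zero count
-/

set_option linter.all false

noncomputable section

namespace Vale.Agent.P014T.Ba

open Vale.Agent.P004S.Ga

variable {G Y Z : Type} [AddCommGroup G] [AddCommGroup Y] [AddCommGroup Z]

theorem card_mul_rel {H L : AddSubgroup G} (h : H ≤ L) :
    Nat.card H * H.relIndex L = Nat.card L := by
  rw [← AddSubgroup.relIndex_bot_left, ← AddSubgroup.relIndex_bot_left]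
  exact AddSubgroup.relIndex_mul_relIndex _ _ _ bot_le h

theorem card_map (f : G →+ Z) (P : AddSubgroup G) :
    Nat.card ↥(f.ker ⊓ P) * Nat.card (P.map f) = Nat.card P := by
  rw [← AddSubgroup.relIndex_ker, ← AddSubgroup.inf_relIndex_right, card_mul_rel inf_le_right]

/-- multiplication by `2 ^ k` -/
def mu (Z : Type) [AddCommGroup Z] (k : ℕ) : Z →+ Z := nsmulAddMonoidHom (2 ^ k)

theorem mu_apply (k : ℕ) (z : Z) : mu Z k z = 2 ^ k • z := rfl

theorem mu_ker (k : ℕ) : (mu Z k).ker = Tk Z k := rfl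

theorem div_pow {B : AddSubgroup Z} (hB : ∀ b ∈ B, ∃ b' ∈ B, 2 • b' = b) (k : ℕ) :
    ∀ b ∈ B, ∃ b' ∈ B, 2 ^ k • b' = b := by
  induction k with
  | zero => exact fun b hb => ⟨b, hb, by simp⟩
  | succ k ih =>
    intro b hb
    obtain ⟨b1, h1, rfl⟩ := ih b hb
    obtain ⟨b2, h2, rfl⟩ := hB b1 h1
    exact ⟨b2, h2, by rw [smul_smul, pow_succ]⟩

theorem card_range_tk (hG : ∀ g : G, ∃ g', 2 • g' = g) (f : G →+ Z) [Finite f.ker] (k : ℕ) :
    Nat.card ↥(f.range ⊓ Tk Z k) = Nat.card (Tk G k) := by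
  have h1 := card_map f (f.ker.comap (mu G k))
  have h2 := card_map (mu G k) (f.ker.comap (mu G k))
  have e1 : f.ker ⊓ f.ker.comap (mu G k) = f.ker :=
    inf_eq_left.2 fun g hg => nsmul_mem hg _
  have e2 : (f.ker.comap (mu G k)).map f = f.range ⊓ Tk Z k := by
    ext z
    constructor
    · rintro ⟨g, hg, rfl⟩
      exact ⟨⟨g, rfl⟩, (map_nsmul f _ _).symm.trans hg⟩
    · rintro ⟨⟨g, rfl⟩, hg⟩
      exact ⟨g, (map_nsmul f _ _).trans hg, rfl⟩
  have e3 : (mu G k).ker ⊓ f.ker.comap (mu G k) = Tk G k :=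
    inf_eq_left.2 fun g hg => by
      have : mu G k g = 0 := hg
      rw [AddSubgroup.mem_comap, this]; exact zero_mem _
  have e4 : (f.ker.comap (mu G k)).map (mu G k) = f.ker :=
    AddSubgroup.map_comap_eq_self fun g _ => by
      obtain ⟨b, -, hb⟩ := div_pow (B := ⊤) (fun b _ => (hG b).imp fun _ h => ⟨trivial, h⟩) k g
        trivial
      exact ⟨b, hb⟩
  rw [e1, e2] at h1
  rw [e3, e4, ← h1, mul_comm] at h2
  exact (Nat.eq_of_mul_eq_mul_left Nat.card_pos h2).symm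

theorem dv_half (d : Dv) : ∃ e : Dv, 2 • e = d := dv_div two_ne_zero d

theorem onto_dv (f : Dv →+ Dv) [Finite f.ker] : Function.Surjective f := fun d => by
  obtain ⟨k, hk⟩ := dv_tor d
  have := AddSubgroup.eq_of_le_of_card_ge (inf_le_right : f.range ⊓ Tk Dv k ≤ Tk Dv k)
    (card_range_tk dv_half f k).ge
  exact (this.ge hk).1

theorem card_tk_split {B : AddSubgroup Z} (hB : ∀ b ∈ B, ∃ b' ∈ B, 2 • b' = b) (k : ℕ) :
    Nat.card ↥(B ⊓ Tk Z k) * Nat.card (Tk (Z ⧸ B) k) = Nat.card (Tk Z k) := by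
  have h1 := card_map (QuotientAddGroup.mk' B) (Tk Z k)
  have e : (Tk Z k).map (QuotientAddGroup.mk' B) = Tk (Z ⧸ B) k := by
    ext q
    constructor
    · rintro ⟨z, hz, rfl⟩
      rw [mem_Tk, ← map_nsmul, mem_Tk.1 hz, map_zero]
    · intro hq
      obtain ⟨z, rfl⟩ := QuotientAddGroup.mk_surjective q
      rw [mem_Tk, ← QuotientAddGroup.mk_nsmul, QuotientAddGroup.eq_zero_iff] at hq
      obtain ⟨b, hb, e⟩ := div_pow hB k _ hq
      refine ⟨z - b, show 2 ^ k • (z - b) = 0 by rw [smul_sub, e, sub_self], ?_⟩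
      rw [map_sub, (QuotientAddGroup.eq_zero_iff b).2 hb |> fun h =>
        show QuotientAddGroup.mk' B b = 0 from h, sub_zero]
      rfl
  rwa [QuotientAddGroup.ker_mk', e] at h1

theorem card_tk2 (k : ℕ) : Nat.card (Tk (Dv × Dv) k) = 4 ^ k := by
  have e : Tk (Dv × Dv) k = (Tk Dv k).prod (Tk Dv k) := by
    ext p
    rw [AddSubgroup.mem_prod, mem_Tk, mem_Tk, mem_Tk, Prod.ext_iff]
    rfl
  rw [e, Nat.card_congr (AddSubgroup.prodEquiv _ _).toEquiv, Nat.card_prod, card_tk, ← mul_pow]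
  norm_num

theorem dv2_half (p : Dv × Dv) : ∃ q : Dv × Dv, 2 • q = p := by
  obtain ⟨a, ha⟩ := dv_half p.1
  obtain ⟨b, hb⟩ := dv_half p.2
  exact ⟨(a, b), Prod.ext ha hb⟩

theorem lev' (Φ : Dv × Dv →+ Z) [Finite Φ.ker] (k : ℕ) :
    Nat.card (Tk Z k) = 4 ^ k * Nat.card (Tk (Z ⧸ Φ.range) k) := by
  rw [← card_tk_split (B := Φ.range), card_range_tk dv2_half, card_tk2]
  rintro _ ⟨p, rfl⟩
  obtain ⟨q, rfl⟩ := dv2_half p
  exact ⟨Φ q, ⟨q, rfl⟩, (map_nsmul Φ _ _).symm⟩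

theorem tk_top (ht : ∀ z : Z, ∃ k : ℕ, 2 ^ k • z = 0) {k : ℕ} (h : Tk Z (k + 1) ≤ Tk Z k) :
    Tk Z k = ⊤ := by
  refine eq_top_iff.2 fun z _ => ?_
  obtain ⟨n, hn⟩ := ht z
  induction n generalizing z with
  | zero => exact pow_up (Nat.zero_le k) hn
  | succ n ih =>
    have : 2 • z ∈ Tk Z k := ih (2 • z) trivial (by rw [smul_smul, ← pow_succ]; exact hn)
    exact h (by rw [mem_Tk, pow_succ, mul_smul]; exact this)

/-- the index of the divisible part is read at two consecutive levels -/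
theorem lev (ht : ∀ z : Z, ∃ k : ℕ, 2 ^ k • z = 0) (Φ : Dv × Dv →+ Z) [Finite Φ.ker] {k D : ℕ}
    (hD : D ≠ 0) (h1 : Nat.card (Tk Z k) = 4 ^ k * D)
    (h2 : Nat.card (Tk Z (k + 1)) = 4 ^ (k + 1) * D) : Φ.range.index = D := by
  rw [lev' Φ] at h1 h2
  have a1 := Nat.eq_of_mul_eq_mul_left (by positivity) h1
  have a2 := Nat.eq_of_mul_eq_mul_left (by positivity) h2
  haveI : Finite (Tk (Z ⧸ Φ.range) (k + 1)) := Nat.finite_of_card_ne_zero (a2 ▸ hD)
  have e := AddSubgroup.eq_of_le_of_card_ge (Tk_mono (Z := Z ⧸ Φ.range) (Nat.le_succ k))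
    (a2.trans a1.symm).le
  have := tk_top (Z := Z ⧸ Φ.range) (fun q => by
    obtain ⟨z, rfl⟩ := QuotientAddGroup.mk_surjective q
    obtain ⟨n, hn⟩ := ht z
    exact ⟨n, by rw [← QuotientAddGroup.mk_nsmul, hn, QuotientAddGroup.mk_zero]⟩) e.ge
  rw [this, AddSubgroup.card_top] at a1
  exact a1

/-- converse: a finite index gives the two counts at all large levels -/
theorem lev_of (ht : ∀ z : Z, ∃ k : ℕ, 2 ^ k • z = 0) (Φ : Dv × Dv →+ Z) [Finite Φ.ker]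
    (hD : Φ.range.index ≠ 0) : ∃ c : ℕ, ∀ k, c ≤ k → Nat.card (Tk Z k) = 4 ^ k * Φ.range.index := by
  haveI : Finite (Z ⧸ Φ.range) := Nat.finite_of_card_ne_zero hD
  obtain ⟨c, hc⟩ := ex_exp (Z := Z ⧸ Φ.range) fun q => by
    obtain ⟨z, rfl⟩ := QuotientAddGroup.mk_surjective q
    obtain ⟨n, hn⟩ := ht z
    exact ⟨n, by rw [← QuotientAddGroup.mk_nsmul, hn, QuotientAddGroup.mk_zero]⟩
  refine ⟨c, fun k hk => ?_⟩
  have : Tk (Z ⧸ Φ.range) k = ⊤ := eq_top_iff.2 fun q _ => pow_up hk (hc q)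
  rw [lev' Φ, this, AddSubgroup.card_top]
  rfl

theorem step (j k : ℕ) : Nat.card (Tk Z j) * Nat.card ↥((mu Z j).range ⊓ Tk Z k) =
    Nat.card (Tk Z (k + j)) := by
  have h1 := card_map (mu Z j) (Tk Z (k + j))
  have e : (Tk Z (k + j)).map (mu Z j) = (mu Z j).range ⊓ Tk Z k := by
    ext z
    constructor
    · rintro ⟨g, hg, rfl⟩
      exact ⟨⟨g, rfl⟩, by
        show 2 ^ k • 2 ^ j • g = 0
        rw [smul_smul, ← pow_add]; exact hg⟩
    · rintro ⟨⟨g, rfl⟩, hg⟩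
      exact ⟨g, by
        show 2 ^ (k + j) • g = 0
        rw [pow_add, mul_smul]; exact hg, rfl⟩
  rwa [e, mu_ker, inf_eq_left.2 (Tk_mono (Nat.le_add_left j k))] at h1

theorem fin_all [Finite (Tk Z 1)] (k : ℕ) : Finite (Tk Z k) := by
  induction k with
  | zero => exact Finite.of_injective _ (AddSubgroup.inclusion_injective (Tk_mono zero_le_one))
  | succ k ih =>
    haveI : Finite ↥((mu Z 1).range ⊓ Tk Z k) :=
      Finite.of_injective _ (AddSubgroup.inclusion_injective inf_le_right)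
    exact Nat.finite_of_card_ne_zero
      (step (Z := Z) 1 k ▸ Nat.mul_ne_zero Nat.card_pos.ne' Nat.card_pos.ne')

theorem rel_id (k : ℕ) : Nat.card (Tk Z k) * Nat.card (Tk Z 1) =
    Nat.card (Tk Z (k + 1)) * (mu Z 1).range.relIndex (Tk Z k) := by
  rw [← step 1 k, ← card_mul_rel (inf_le_right : (mu Z 1).range ⊓ Tk Z k ≤ Tk Z k),
    AddSubgroup.inf_relIndex_right]
  ring

theorem two_index (ht : ∀ z : Z, ∃ k : ℕ, 2 ^ k • z = 0) [Finite (Tk Z 1)] :
    (mu Z 1).range.index ≠ 0 := by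
  have hf := fin_all (Z := Z)
  let r : ℕ → ℕ := fun k => Nat.card ((Tk Z k).map (QuotientAddGroup.mk' (mu Z 1).range))
  have hr : ∀ k, r k = (mu Z 1).range.relIndex (Tk Z k) := fun k => by
    rw [← QuotientAddGroup.ker_mk' (mu Z 1).range, AddSubgroup.relIndex_ker]
  have hb : BddAbove (Set.range r) := ⟨Nat.card (Tk Z 1), by
    rintro _ ⟨k, rfl⟩
    have h1 := rel_id (Z := Z) k
    have h2 := AddSubgroup.card_le_of_le (Tk_mono (Z := Z) (Nat.le_succ k))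
    rw [hr]
    exact Nat.le_of_mul_le_mul_left (h1 ▸ Nat.mul_le_mul_right _ h2) Nat.card_pos⟩
  obtain ⟨k, hk⟩ := Nat.sSup_mem (Set.range_nonempty r) hb
  have hf' : ∀ j, Finite ((Tk Z j).map (QuotientAddGroup.mk' (mu Z 1).range)) := fun j =>
    Finite.of_surjective _ (AddMonoidHom.addSubgroupMap_surjective _ _)
  have : (Tk Z k).map (QuotientAddGroup.mk' (mu Z 1).range) = ⊤ := eq_top_iff.2 fun q _ => by
    obtain ⟨z, rfl⟩ := QuotientAddGroup.mk_surjective q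
    obtain ⟨n, hn⟩ := ht z
    rw [AddSubgroup.eq_of_le_of_card_ge (AddSubgroup.map_mono (Tk_mono (Nat.le_add_right k n)))
      ((le_csSup hb ⟨k + n, rfl⟩).trans hk.ge)]
    exact ⟨z, pow_up (Nat.le_add_left n k) hn, rfl⟩
  have h3 : r k ≠ 0 := Nat.card_pos.ne'
  simp only [r, this, AddSubgroup.card_top] at h3
  exact h3

/-- corank at most two -/
theorem cork_le (ht : ∀ z : Z, ∃ k : ℕ, 2 ^ k • z = 0) [Finite (Tk Z 1)] {k : ℕ}
    (h : Nat.card (Tk Z (k + 1)) ≤ 4 * Nat.card (Tk Z k)) :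
    Nat.card (Tk Z 1) ≤ 4 * (mu Z 1).range.index := by
  haveI := fin_all (Z := Z) k
  have h1 := rel_id (Z := Z) k
  have h2 : (mu Z 1).range.relIndex (Tk Z k) ≤ (mu Z 1).range.index := by
    rw [← AddSubgroup.relIndex_top_right]
    exact AddSubgroup.relIndex_le_of_le_right le_top
      (by rw [AddSubgroup.relIndex_top_right]; exact two_index ht)
  refine Nat.le_of_mul_le_mul_left ?_ (Nat.card_pos (α := Tk Z k))
  rw [h1]
  exact (Nat.mul_le_mul h h2).trans (le_of_eq (by ring))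

/-- corank at least two -/
theorem cork_ge (ht : ∀ z : Z, ∃ k : ℕ, 2 ^ k • z = 0) [Finite (Tk Z 1)]
    (h : (mu Z 1).range.index * 4 ≤ Nat.card (Tk Z 1)) (k : ℕ) :
    4 * Nat.card (Tk Z k) ≤ Nat.card (Tk Z (k + 1)) := by
  have h1 := rel_id (Z := Z) k
  have h2 : (mu Z 1).range.relIndex (Tk Z k) ≤ (mu Z 1).range.index := by
    rw [← AddSubgroup.relIndex_top_right]
    exact AddSubgroup.relIndex_le_of_le_right le_top
      (by rw [AddSubgroup.relIndex_top_right]; exact two_index ht)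
  refine Nat.le_of_mul_le_mul_right ?_ (Nat.card_pos (α := Tk Z 1))
  calc 4 * Nat.card (Tk Z k) * Nat.card (Tk Z 1)
      = Nat.card (Tk Z (k + 1)) * ((mu Z 1).range.relIndex (Tk Z k) * 4) := by
        rw [mul_assoc, h1]; ring
    _ ≤ _ := Nat.mul_le_mul_left _ ((Nat.mul_le_mul_right _ h2).trans h)

theorem pow_div (ht : ∀ z : Z, ∃ k : ℕ, 2 ^ k • z = 0) [Finite (Tk Z 1)]
    (hg : ∀ j, 4 * Nat.card (Tk Z j) ≤ Nat.card (Tk Z (j + 1))) {k : ℕ}
    (h : Nat.card (Tk Z (k + 1)) ≤ 4 * Nat.card (Tk Z k)) :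
    ∀ b ∈ (mu Z k).range, ∃ b' ∈ (mu Z k).range, 2 • b' = b := by
  have hf := fin_all (Z := Z)
  have key : ∀ n, (mu Z (k + n)).range ⊓ Tk Z 1 = (mu Z k).range ⊓ Tk Z 1 := fun n => by
    haveI : Finite ↥((mu Z k).range ⊓ Tk Z 1) :=
      Finite.of_injective _ (AddSubgroup.inclusion_injective inf_le_right)
    refine AddSubgroup.eq_of_le_of_card_ge (inf_le_inf_right _ ?_) ?_
    · rintro _ ⟨z, rfl⟩
      exact ⟨2 ^ n • z, by rw [mu_apply, mu_apply, smul_smul, pow_add]⟩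
    · have a1 := step (Z := Z) k 1
      have a2 := step (Z := Z) (k + n) 1
      have a3 := hg (k + n)
      rw [add_comm 1] at a1 a2
      rw [← a1, mul_comm 4] at h
      rw [← a2, mul_comm 4] at a3
      exact (Nat.le_of_mul_le_mul_left h Nat.card_pos).trans
        (Nat.le_of_mul_le_mul_left a3 Nat.card_pos)
  intro b hb
  obtain ⟨n, hn⟩ := ht b
  induction n generalizing b with
  | zero => exact ⟨0, zero_mem _, by simpa using hn.symm⟩
  | succ n ih =>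
    obtain ⟨⟨w, hw⟩, -⟩ := (key (n + 1)).ge (show 2 ^ n • b ∈ _ from ⟨nsmul_mem hb _, by
      show 2 ^ 1 • 2 ^ n • b = 0
      rw [smul_smul, ← pow_add, add_comm]; exact hn⟩)
    obtain ⟨b', hb', e⟩ := ih (b - 2 • mu Z k w) 
      (sub_mem hb (nsmul_mem (AddMonoidHom.mem_range.2 ⟨w, rfl⟩) _)) (by
      rw [smul_sub, ← hw, mu_apply, mu_apply]; module)
    exact ⟨b' + mu Z k w, add_mem hb' ⟨w, rfl⟩, by rw [smul_add, e, sub_add_cancel]⟩

theorem div_int (ht : ∀ g : G, ∃ k : ℕ, 2 ^ k • g = 0) (hG : ∀ g : G, ∃ g', 2 • g' = g) {n : ℤ}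
    (hn : n ≠ 0) : Function.Surjective fun g : G => n • g := by
  intro g
  obtain ⟨a, m, hm, e⟩ := Nat.exists_eq_two_pow_mul_odd (Int.natAbs_ne_zero.2 hn)
  obtain ⟨b, -, hb⟩ := div_pow (B := ⊤) (fun b _ => (hG b).imp fun _ h => ⟨trivial, h⟩) a g trivial
  obtain ⟨k, hk⟩ := ht b
  obtain ⟨s, t, hst⟩ : IsCoprime (m : ℤ) ((2 ^ k : ℕ) : ℤ) :=
    Nat.isCoprime_iff_coprime.2 (Nat.Coprime.pow_right _ (Nat.coprime_two_right.2 hm))
  have h1 : (m : ℤ) • s • b = b := by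
    calc (m : ℤ) • s • b = (s * m + t * ((2 ^ k : ℕ) : ℤ)) • b := by
          rw [add_smul, mul_smul t, natCast_zsmul b, hk, smul_zero, add_zero, smul_smul, mul_comm]
      _ = b := by rw [hst, one_smul]
  refine ⟨n.sign • s • b, ?_⟩
  show n • n.sign • s • b = g
  rw [smul_smul n, Int.mul_sign_self, e, Nat.cast_mul, mul_smul, h1, natCast_zsmul, hb]

/-- an element of a divisible subgroup spreads to a map from `Dv` -/
theorem ex_hom (ht : ∀ z : Z, ∃ k : ℕ, 2 ^ k • z = 0) {B : AddSubgroup Z}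
    (hB : ∀ b ∈ B, ∃ b' ∈ B, 2 • b' = b) {j : ℕ} {b : Z} (hb : b ∈ B) (hj : 2 ^ j • b = 0) :
    ∃ x : Dv →+ Z, x (u j) = b := by
  haveI : DivisibleBy B ℤ := divisibleByOfSMulRightSurj _ _ fun hn => div_int
    (fun g => (ht g.1).imp fun _ h => Subtype.ext h)
    (fun g => by
      obtain ⟨b', h1, h2⟩ := hB g.1 g.2
      exact ⟨⟨b', h1⟩, Subtype.ext h2⟩) hn
  let f : ZMod (2 ^ j) →+ Dv := ZMod.lift _ ⟨zmultiplesHom Dv (u j), by
    rw [zmultiplesHom_apply, natCast_zsmul]; exact u_mem j⟩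
  let g : ZMod (2 ^ j) →+ B := ZMod.lift _ ⟨zmultiplesHom B ⟨b, hb⟩, by
    rw [zmultiplesHom_apply, natCast_zsmul]; exact Subtype.ext hj⟩
  obtain ⟨x, hx⟩ := (Module.Baer.of_divisible B).extension_property_addMonoidHom f
    ((ZMod.lift_injective _).2 fun m hm => (ZMod.intCast_zmod_eq_zero_iff_dvd _ _).2 (by
      exact_mod_cast (u_ord m j).1 hm)) g
  have h1 := DFunLike.congr_fun hx ((1 : ℤ) : ZMod (2 ^ j))
  simp only [f, g, AddMonoidHom.comp_apply, ZMod.lift_coe, zmultiplesHom_apply, one_smul] at h1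
  exact ⟨B.subtype.comp x, by rw [AddMonoidHom.comp_apply, h1]; rfl⟩

/-- lifting of a class of finite level -/
theorem lift (ht : ∀ z : Z, ∃ k : ℕ, 2 ^ k • z = 0) [Finite (Tk Z 1)]
    (hg : (mu Z 1).range.index * 4 ≤ Nat.card (Tk Z 1)) {k : ℕ}
    (h : Nat.card (Tk Z (k + 1)) ≤ 4 * Nat.card (Tk Z k)) {j : ℕ} {z : Z}
    (hz : 2 ^ j • 2 ^ k • z = 0) : ∃ x : Dv →+ Z, x (u j) = 2 ^ k • z :=
  ex_hom ht (pow_div ht (cork_ge ht hg) h) ⟨z, rfl⟩ hz

end Vale.Agent.P014T.Ba
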