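import Vale.Agent.P014T.Ba.Dv

/-!
# P014T, block B, abstract algebra (helper67): saturation and the index of the Selmer part
-/

set_option linter.all false

noncomputable section

namespace Vale.Agent.P014T.Ba

open Vale.Agent.P004S.Ga

variable {Y Z : Type} [AddCommGroup Y] [AddCommGroup Z]

/-- the data of block B: `Y` local points, `R` global points, `Z` framed cocycles -/
structure Dat (pr : Y →+ Z →+ Dv) (R : AddSubgroup Y) (lg : Y →+ K) (y0 : Y) : Prop where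
  tor : ∀ z : Z, ∃ k : ℕ, 2 ^ k • z = 0
  fin : Finite (Tp Y)
  rc : ∀ r ∈ R, ∀ z, pr r z = 0
  hb : ∀ y, 2 • y = 0 → (∀ z, pr y z = 0) → y ∈ R
  hc : ∀ y, 2 • y ∈ R → ∃ r ∈ R, 2 • y = 2 • r
  ne : lg y0 ≠ 0
  bd : ∀ y, ‖lg y‖ ≤ ‖lg y0‖
  sat : ∀ y, ‖lg y‖ < ‖lg y0‖ → ∃ t ∈ Tp Y, ∃ y', y = t + 2 • y'

/-- the elements orthogonal to everything -/
def Zf (pr : Y →+ Z →+ Dv) : AddSubgroup Z := pr.flip.ker

/-- the elements orthogonal to the torsion -/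
def Zt (pr : Y →+ Z →+ Dv) : AddSubgroup Z := (pr.comp (Tp Y).subtype).flip.ker

variable {pr : Y →+ Z →+ Dv} {R : AddSubgroup Y} {lg : Y →+ K} {y0 : Y}

theorem mem_Zf {z : Z} : z ∈ Zf pr ↔ ∀ y, pr y z = 0 :=
  ⟨fun h y => DFunLike.congr_fun h y, fun h => AddMonoidHom.ext h⟩

theorem mem_Zt {z : Z} : z ∈ Zt pr ↔ ∀ t ∈ Tp Y, pr t z = 0 :=
  ⟨fun h t ht => DFunLike.congr_fun h (⟨t, ht⟩ : Tp Y), fun h => AddMonoidHom.ext fun t => h t.1 t.2⟩

theorem Zf_le : Zf pr ≤ Zt pr := fun _ h => mem_Zt.2 fun t _ => mem_Zf.1 h t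

theorem pr_swap (n : ℕ) (y : Y) (z : Z) : pr (n • y) z = pr y (n • z) := by
  rw [map_nsmul, map_nsmul, AddMonoidHom.nsmul_apply]

theorem lg_tor {t : Y} (h : t ∈ Tp Y) : lg t = 0 := by
  obtain ⟨k, hk⟩ := h
  have := congrArg lg hk
  rw [map_nsmul, map_zero, nsmul_eq_mul, mul_eq_zero] at this
  exact this.resolve_left (Nat.cast_ne_zero.2 (by positivity))

theorem norm_sub_lt {a b : K} (hb : b ≠ 0) (h : ‖a‖ = ‖b‖) : ‖a - b‖ < ‖b‖ := by
  have hp : 0 < ‖b‖ := norm_pos_iff.2 hb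
  have h1 : ‖a / b‖ = 1 := by rw [norm_div, h, div_self hp.ne']
  obtain ⟨n, hn⟩ := ex_int h1.le 1
  have hlt : ‖a / b - 1‖ < 1 := by
    rcases Int.even_or_odd' n with ⟨m, rfl | rfl⟩
    · exfalso
      have h2 : ‖((2 * m : ℤ) : K)‖ ≤ ((2 : ℝ) ^ 1)⁻¹ := (int_norm _ 1).2 ⟨m, by ring⟩
      have h3 := IsUltrametricDist.norm_add_le_max (a / b - ((2 * m : ℤ) : K)) ((2 * m : ℤ) : K)
      rw [sub_add_cancel, h1] at h3
      have := max_le hn h2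
      norm_num at this h3
      rcases h3 with h3 | h3 <;> linarith [this.1, this.2]
    · have h2 : ‖((2 * m : ℤ) : K)‖ ≤ ((2 : ℝ) ^ 1)⁻¹ := (int_norm _ 1).2 ⟨m, by ring⟩
      have h3 := IsUltrametricDist.norm_add_le_max (a / b - ((2 * m + 1 : ℤ) : K))
        ((2 * m : ℤ) : K)
      have e : a / b - ((2 * m + 1 : ℤ) : K) + ((2 * m : ℤ) : K) = a / b - 1 := by
        push_cast; ring
      rw [e] at h3
      exact lt_of_le_of_lt (h3.trans (max_le hn h2)) (by norm_num)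
  have e : a - b = (a / b - 1) * b := by field_simp
  rw [e, norm_mul]
  exact mul_lt_of_lt_one_left hp hlt

namespace Dat

variable (h : Dat pr R lg y0)
include h

theorem gen1 (y : Y) : ∃ n : ℤ, ∃ t ∈ Tp Y, ∃ y', y = n • y0 + t + 2 • y' := by
  rcases (h.bd y).lt_or_eq with h1 | h1
  · obtain ⟨t, ht, y', e⟩ := h.sat y h1
    exact ⟨0, t, ht, y', by rw [zero_smul, zero_add, e]⟩
  · obtain ⟨t, ht, y', e⟩ := h.sat (y - y0) (by rw [map_sub]; exact norm_sub_lt h.ne h1)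
    exact ⟨1, t, ht, y', by rw [one_smul, add_assoc, ← e]; abel⟩

theorem gen (k : ℕ) (y : Y) : ∃ n : ℤ, ∃ t ∈ Tp Y, ∃ y', y = n • y0 + t + 2 ^ k • y' := by
  induction k with
  | zero => exact ⟨0, 0, zero_mem _, y, by simp⟩
  | succ k ih =>
    obtain ⟨n, t, ht, y', e⟩ := ih
    obtain ⟨n1, t1, ht1, y1, e1⟩ := h.gen1 y'
    refine ⟨n + 2 ^ k * n1, t + 2 ^ k • t1, add_mem ht (nsmul_mem ht1 _), y1, ?_⟩
    rw [e, e1]
    module

/-- torsion points orthogonal to everything are global -/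
theorem tperp {t : Y} (ht : t ∈ Tp Y) (ho : ∀ z, pr t z = 0) : t ∈ R := by
  obtain ⟨k, hk⟩ := ht
  induction k generalizing t with
  | zero => rw [pow_zero, one_smul] at hk; rw [hk]; exact zero_mem _
  | succ k ih =>
    have h2 : 2 • t ∈ R := ih (fun z => by rw [map_nsmul, AddMonoidHom.nsmul_apply, ho, smul_zero])
      (by rw [smul_smul, ← pow_succ]; exact hk)
    obtain ⟨r, hr, e⟩ := h.hc t h2
    have := h.hb (t - r) (by rw [smul_sub, e, sub_self]) fun z => by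
      rw [map_sub, AddMonoidHom.sub_apply, ho, h.rc r hr, sub_zero]
    simpa using add_mem this hr

theorem tp_tp (t : Tp Y) : t ∈ Tp (Tp Y) := by
  obtain ⟨k, hk⟩ := t.2
  exact ⟨k, Subtype.ext hk⟩

theorem zt_index : (Zt pr).index * Nat.card ↥(R ⊓ Tp Y) = Nat.card (Tp Y) := by
  haveI := h.fin
  have e : (pr.comp (Tp Y).subtype).ker = (R ⊓ Tp Y).addSubgroupOf (Tp Y) := by
    ext t
    rw [AddSubgroup.mem_addSubgroupOf, AddMonoidHom.mem_ker, AddSubgroup.mem_inf]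
    exact ⟨fun h1 => ⟨h.tperp t.2 fun z => DFunLike.congr_fun h1 z, t.2⟩,
      fun h1 => AddMonoidHom.ext fun z => h.rc _ h1.1 z⟩
  rw [Zt, (fd h.tp_tp (pr.comp (Tp Y).subtype)).1, e, mul_comm,
    ← Nat.card_congr (AddSubgroup.addSubgroupOfEquivOfLe (inf_le_right : R ⊓ Tp Y ≤ Tp Y)).toEquiv,
    AddSubgroup.card_mul_index]

theorem zt_surj (ψ : Z →+ Dv) (hψ : ∀ z ∈ Zt pr, ψ z = 0) : ∃ t ∈ Tp Y, pr t = ψ := by
  haveI := h.fin
  obtain ⟨t, ht⟩ := (fd h.tp_tp (pr.comp (Tp Y).subtype)).2 ψ fun z hz =>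
    hψ z (mem_Zt.2 fun t ht => hz ⟨t, ht⟩)
  exact ⟨t, t.2, ht⟩

theorem zf_iff {z : Z} : z ∈ Zf pr ↔ z ∈ Zt pr ∧ pr y0 z = 0 := by
  refine ⟨fun h1 => ⟨Zf_le h1, mem_Zf.1 h1 _⟩, fun h1 => mem_Zf.2 fun y => ?_⟩
  obtain ⟨k, hk⟩ := h.tor z
  obtain ⟨n, t, ht, y', rfl⟩ := h.gen k y
  rw [map_add, map_add, AddMonoidHom.add_apply, AddMonoidHom.add_apply, pr_swap, hk, map_zero,
    mem_Zt.1 h1.1 t ht, map_zsmul, AddMonoidHom.zsmul_apply, h1.2, smul_zero, add_zero, add_zero]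

theorem zf_eq : Zf pr = (pr y0).ker ⊓ Zt pr := by
  ext z
  rw [h.zf_iff, AddSubgroup.mem_inf, AddMonoidHom.mem_ker, and_comm]

theorem zf_rel : (Zf pr).relIndex (Zt pr) = Nat.card ((Zt pr).map (pr y0)) := by
  rw [h.zf_eq, AddSubgroup.inf_relIndex_right, AddSubgroup.relIndex_ker]

/-- a power of two carries everything into `Zt` -/
theorem ex_zt : ∃ c : ℕ, ∀ z : Z, 2 ^ c • z ∈ Zt pr := by
  haveI := h.fin
  obtain ⟨c, hc⟩ := ex_expT (Z := Y)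
  exact ⟨c, fun z => mem_Zt.2 fun t ht => by
    rw [← pr_swap, hc t ht, map_zero, AddMonoidHom.zero_apply]⟩

theorem coef {y t y' : Y} {n : ℤ} {m k : ℕ} (hm : ‖lg y‖ * 2 ^ m = ‖lg y0‖) (hk : m < k)
    (ht : t ∈ Tp Y) (e : y = n • y0 + t + 2 ^ k • y') : ∃ n' : ℤ, Odd n' ∧ n = 2 ^ m * n' := by
  have hp : 0 < ‖lg y0‖ := norm_pos_iff.2 h.ne
  have e1 : lg y = n * lg y0 + 2 ^ k * lg y' := by
    rw [e, map_add, map_add, lg_tor ht, map_zsmul, map_nsmul, add_zero, zsmul_eq_mul, nsmul_eq_mul]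
    push_cast; rfl
  have e2 : ‖lg y‖ = ((2 : ℝ) ^ m)⁻¹ * ‖lg y0‖ := by rw [← hm]; field_simp
  have h3 : ‖(2 : K) ^ k * lg y'‖ < ‖lg y‖ := by
    rw [norm_mul, norm_two_pow, e2]
    refine lt_of_le_of_lt (mul_le_mul_of_nonneg_left (h.bd y') (by positivity)) ?_
    exact mul_lt_mul_of_pos_right ((inv_lt_inv₀ (by positivity) (by positivity)).2
      (pow_lt_pow_right₀ (by norm_num) hk)) hp
  have h4 : ‖(n : K) * lg y0‖ = ‖lg y‖ := by
    have : (n : K) * lg y0 = lg y + -(2 ^ k * lg y') := by rw [e1]; ring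
    rw [this, IsUltrametricDist.norm_add_eq_max_of_norm_ne_norm (by rw [norm_neg]; exact h3.ne'),
      norm_neg, max_eq_left h3.le]
  rw [norm_mul, e2] at h4
  have h5 := mul_right_cancel₀ hp.ne' h4
  obtain ⟨n', rfl⟩ := (int_norm n m).1 h5.le
  refine ⟨n', ?_, rfl⟩
  rcases Int.even_or_odd n' with ⟨a, rfl⟩ | ho
  · have := (int_norm (2 ^ m * (a + a)) (m + 1)).2 ⟨a, by ring⟩
    rw [h5] at this
    exact absurd ((inv_le_inv₀ (by positivity) (by positivity)).1 this)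
      (not_le.2 (pow_lt_pow_right₀ (by norm_num) (Nat.lt_succ_self m)))
  · exact ho

theorem img_le {r0 : Y} (h0 : r0 ∈ R) {m : ℕ} (hm : ‖lg r0‖ * 2 ^ m = ‖lg y0‖) :
    (Zt pr).map (pr y0) ≤ Tk Dv m := by
  rintro _ ⟨z, hz, rfl⟩
  obtain ⟨k, hk⟩ := h.tor z
  obtain ⟨n, t, ht, y', e⟩ := h.gen (k + m + 1) r0
  obtain ⟨n', ho, rfl⟩ := h.coef hm (by omega) ht e
  have h1 := h.rc r0 h0 z
  rw [e, map_add, map_add, AddMonoidHom.add_apply, AddMonoidHom.add_apply, pr_swap,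
    pow_up (by omega) hk, map_zero, mem_Zt.1 hz t ht, map_zsmul, AddMonoidHom.zsmul_apply, add_zero,
    add_zero, mul_comm, mul_smul] at h1
  have h2 := odd_inj ho (dv_tor _) h1
  rw [mem_Tk, ← natCast_zsmul]
  exact_mod_cast h2

theorem img_eq {r0 : Y} (h0 : r0 ∈ R) (hx : ∀ r ∈ R, ‖lg r‖ ≤ ‖lg r0‖) {m : ℕ}
    (hm : ‖lg r0‖ * 2 ^ m = ‖lg y0‖) : (Zt pr).map (pr y0) = Tk Dv m := by
  refine le_antisymm (h.img_le h0 hm) ?_
  cases m with
  | zero =>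
    intro d hd
    rw [mem_Tk, pow_zero, one_smul] at hd
    rw [hd]; exact zero_mem _
  | succ j =>
    refine (le_or _ j).resolve_left fun hI => ?_
    obtain ⟨t, ht, et⟩ := h.zt_surj (pr (2 ^ j • y0)) fun z hz => by
      rw [map_nsmul, AddMonoidHom.nsmul_apply]
      exact hI ⟨z, hz, rfl⟩
    obtain ⟨c, hc⟩ := h.ex_zt
    have hz : ∀ z : Z, 2 ^ (j + c + 1 + 1) • z ∈ Zf pr := fun z => by
      have : 2 ^ j • 2 ^ c • z ∈ Zf pr := h.zf_iff.2 ⟨nsmul_mem (hc z) _, by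
        rw [map_nsmul]; exact hI ⟨_, hc z, rfl⟩⟩
      have e : 2 ^ (j + c + 1 + 1) • z = 4 • 2 ^ j • 2 ^ c • z := by module
      rw [e]; exact nsmul_mem this _
    obtain ⟨n, t1, ht1, y', e⟩ := h.gen (j + c + 1 + 1) r0
    obtain ⟨n', -, rfl⟩ := h.coef hm (by omega) ht1 e
    have e2 : r0 - ((2 * n') • t + t1) =
        2 • (n' • (2 ^ j • y0 - t) + 2 ^ (j + c + 1) • y') := by
      rw [e]; module
    have h2 : (2 * n') • t + t1 ∈ R := h.tperp (add_mem (zsmul_mem ht _) ht1) fun z => by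
      have e3 : (2 * n') • t + t1 =
          r0 - (2 * n') • (2 ^ j • y0 - t) - 2 ^ (j + c + 1 + 1) • y' := by
        rw [e]; module
      rw [e3, map_sub, map_sub, map_zsmul, map_sub, et, sub_self, smul_zero,
        AddMonoidHom.sub_apply, AddMonoidHom.sub_apply, h.rc r0 h0, pr_swap, mem_Zf.1 (hz z)]
      simp
    obtain ⟨r, hr, e4⟩ := h.hc _ (e2 ▸ sub_mem h0 h2)
    have e5 := congrArg lg (e2.trans e4)
    rw [map_sub, lg_tor (add_mem (zsmul_mem ht _) ht1), sub_zero, map_nsmul, nsmul_eq_mul] at e5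
    have h6 := hx r hr
    have h7 := norm_two_pow 1
    have hp : 0 < ‖lg y0‖ := norm_pos_iff.2 h.ne
    rw [pow_one] at h7
    have h8 : ‖lg r0‖ = ((2 : ℝ) ^ 1)⁻¹ * ‖lg r‖ := by
      rw [e5, norm_mul, Nat.cast_ofNat, h7]
    have h9 : ‖lg r0‖ = 0 := by
      have := norm_nonneg (lg r0)
      norm_num at h8
      linarith
    rw [h9, zero_mul] at hm
    exact hp.ne hm

/-- rank one: the index of the Selmer part -/
theorem one {r0 : Y} (h0 : r0 ∈ R) (hx : ∀ r ∈ R, ‖lg r‖ ≤ ‖lg r0‖) {m : ℕ}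
    (hm : ‖lg r0‖ * 2 ^ m = ‖lg y0‖) :
    (Zf pr).index * Nat.card ↥(R ⊓ Tp Y) = Nat.card (Tp Y) * 2 ^ m := by
  rw [← AddSubgroup.relIndex_mul_index (Zf_le (pr := pr)), h.zf_rel, h.img_eq h0 hx hm, card_tk,
    mul_assoc, h.zt_index, mul_comm]

end Dat

end Vale.Agent.P014T.Ba
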