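import Vale.Agent.P014T.Ba.Tw0
import Vale.Agent.P014T.Ba.La
import Vale.Agent.P014T.Pp.Pzx

/-! # P014T, block B: the towers of two twists are congruent modulo two -/

set_option autoImplicit false
set_option linter.all false

open Matrix Set Filter PowerSeries

noncomputable section

namespace Vale.Agent.P014T.Ba.Tt

open Vale.Agent.P022 (GQ)
open Vale.Agent.P004F (M2 La Rj cj mj)
open Vale.Agent.P004F.Pat (U Sy U_bdd U_ch)
open Pq (Zq Gd)
open Dr hiding cj cl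
open Pp
open scoped Classical

/-- evaluation of the root -/
def qe {R : Type} [CommRing R] {a b : R} (x : R) (h : x * x = a + b * x) :
    QuadraticAlgebra R a b →+* R where
  toFun y := y.re + y.im * x
  map_one' := by simp [QuadraticAlgebra.re_one, QuadraticAlgebra.im_one]
  map_zero' := by simp
  map_add' y z := by simp; ring
  map_mul' y z := by simp; linear_combination (-y.im * z.im) * h

/-- the character with values `1` and `y` -/
def sg {A : Type} [CommMonoid A] {ξ : GQ →* ℤ_[2]} (h : ∀ g, ξ g = 1 ∨ ξ g = -1) {y : A}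
    (hy : y * y = 1) : GQ →* A where
  toFun g := if ξ g = 1 then 1 else y
  map_one' := if_pos ξ.map_one
  map_mul' g k := by
    have n : (-1 : ℤ_[2]) ≠ 1 := by norm_num
    rcases h g with a | a <;> rcases h k with b | b <;> simp [a, b, n, hy]

/-- the group ring -/
abbrev Ag (j : ℕ) : Type := Rg.Rl 0 (-2) j

def s0 (j : ℕ) : Ag j →+* Rj (j + 1) := qe 0 (by simp)

def s1 (j : ℕ) : Ag j →+* Rj (j + 1) := qe (-2) (by simp [map_ofNat])

theorem s01 {j : ℕ} (y : Ag j) : s0 j y = s1 j y + 2 * y.im := by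
  show y.re + y.im * 0 = y.re + y.im * -2 + _
  ring

theorem y_sq (j : ℕ) : (1 + Rg.rt : Ag j) * (1 + Rg.rt) = 1 := by
  have := Rg.cq_rt (a := 0) (b := -2) (j := j)
  rw [map_zero (Rg.cq ..), map_neg (Rg.cq ..), map_ofNat (Rg.cq ..)] at this
  linear_combination this

variable {b b' : Bs} {β : ℤ_[2]} {j N M r : ℕ} {z : Fm N}

variable (j β M z) in
/-- a presentation, the coboundary, and a framed lift of the class divided by `β` -/
structure Lf (t : Tw b) (Q : Matrix (Fin r) (Fin (r + 2)) (Rj (j + 1)))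
    (u : GQ → Matrix (Fin 2) (Fin (r + 2)) (Rj (j + 1))) (v w : Fin (r + 2) → Rj (j + 1)) :
    Prop where
  pn : t.Pn j Q u
  qv : Q *ᵥ v = 0
  uv : ∀ g, u g *ᵥ v = (t.a j g - 1) *ᵥ (cj _ ∘ b.gp)
  qw : Q *ᵥ (cj (j + 1) β • w) = 0
  uw : ∀ ι, Ch ⊤ (t.a j) (fun g => u g *ᵥ (cj (j + 1) β • w)) (z M _ ι (t.Ψ j))

variable (j β M z) in
/-- the hypotheses at one level -/
structure Hy (t : Tw b) : Prop where
  le : j + 1 ≤ N
  cz : Cz M (b.ρ N) (PadicInt.toZModPow N β) z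
  dv : t.c j ∣ M
  cd : Cd M b.ε
  pf : M.primeFactors ⊆ b.S ∪ t.T j

/-- two towers with the same representation and the same primes -/
structure Sm (t : Tw b) (t' : Tw b') : Prop where
  r : b'.r = b.r
  S : b'.S = b.S
  c : b'.c = b.c
  gp : b'.gp = b.gp
  T : ∀ j, t'.T j = t.T j
  e : ∀ j, t'.e j = t.e j

variable {t : Tw b} {t' : Tw b'}

theorem mv_map {A R s k : Type} [CommRing A] [CommRing R] [Fintype k] (f : A →+* R) (B : Matrix s k A)
    (v : k → A) : B.map f *ᵥ (f ∘ v) = f ∘ (B *ᵥ v) := funext fun i => (f.map_mulVec B v i).symm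

/-- specialisation -/
theorem lf_of {A : Type} [CommRing A] (f : A →+* Rj (j + 1)) (s : Sm t t') (h : Hy β j M z t)
    {ι : Zn N →+* A} {Ψ : GQ →* A} (k : ℤ_[2] →+* A) (e : ∀ g, f (Ψ g) = t'.Ψ j g)
    {Q : Matrix (Fin r) (Fin (r + 2)) A} {u v w}
    (p : Pn (b.S ∪ t.T j) (aa (b.ρ N) ι Ψ) b.c Q u) (qv : Q *ᵥ v = 0)
    (uv : ∀ g, u g *ᵥ v = (aa (b.ρ N) ι Ψ g - 1) *ᵥ (k ∘ b.gp)) (qw : Q *ᵥ (k β • w) = 0)
    (uw : Ch ⊤ (aa (b.ρ N) ι Ψ) (fun g => u g *ᵥ (k β • w)) (z M A ι Ψ)) :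
    Lf β j M z t' (Q.map f) (fun g => (u g).map f) (f ∘ v) (f ∘ w) := by
  have ek x : f (k x) = cj _ x := G0.uq (nil2 (f.comp ι)) (f.comp k) _ x
  have ea : (fun g => (aa (b.ρ N) ι Ψ g).map f) = t'.a j := funext fun g => by
    rw [aa_map, aa_eq b _ (cj _), t'.a_eq, s.r]
    exact congrArg (· • _) (e g)
  have ew : cj (j + 1) β • (f ∘ w) = f ∘ (k β • w) := funext fun i => by
    rw [← ek]; exact (f.map_mul _ _).symm
  have z0 {n : Type} : f ∘ (0 : n → A) = 0 := funext fun _ => f.map_zero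
  obtain ⟨S, a, Ad, -, E, m⟩ := h.cz.es
  obtain ⟨x, uw⟩ := uw
  refine ⟨?_, by rw [mv_map, qv, z0], fun g => ?_, by rw [ew, mv_map, qw, z0],
    fun ι' => ⟨f ∘ x, fun g _ => ?_⟩⟩
  · have := p.map f
    rw [ea, ← s.S, ← s.T, ← s.c] at this
    exact this
  · rw [mv_map, uv, ← mv_map, s.gp, ← congrFun ea g, Matrix.map_sub _ (map_sub f),
      Matrix.map_one _ f.map_zero f.map_one]
    exact congrArg _ (funext fun i => ek _)
  · beta_reduce
    rw [ew, mv_map, ← congrFun ea g, mv_map, RingHom.ext_zmod ι' (f.comp ι),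
      ← show f.toMonoidHom.comp Ψ = t'.Ψ j from MonoidHom.ext e]
    refine funext fun i => ?_
    rw [Pi.sub_apply, ← E.map _ _ _ f _ _ _ _ m]
    exact (f.map_sub _ _).symm.trans ((congrArg f (congrFun (uw g trivial) i)).trans (f.map_sub _ _))

/-- one level -/
theorem lvl (s : Sm t t') (h : Hy β j M z t) (cd : Cd M b'.ε) : ∃ r,
    (∃ (Q : Matrix (Fin r) (Fin (r + 2)) (Ag j)) (u : GQ → Matrix (Fin 2) (Fin (r + 2)) (Ag j))
      (v w : Fin (r + 2) → Ag j),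
      Lf β j M z t (Q.map (s0 j)) (fun g => (u g).map (s0 j)) (s0 j ∘ v) (s0 j ∘ w) ∧
      Lf β j M z t' (Q.map (s1 j)) (fun g => (u g).map (s1 j)) (s1 j ∘ v) (s1 j ∘ w)) ∧
    Nat.card (Zq (ZMod 2) (b.S ∪ t.T j) (fun g => (b.r g).map PadicInt.toZMod) b.c) = 2 ^ (r + 2) := by
  have h0 : (2 : ℤ_[2]) ∣ 0 := dvd_zero _
  have h2 : (2 : ℤ_[2]) ∣ -2 := dvd_rfl.neg_right
  have := Rg.loc h0 h2 j
  obtain ⟨ι⟩ : Nonempty (Zn N →+* Ag j) := ex_io (pow_eq_zero_of_le h.le Rg.two_pow)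
  have x g : (b.ε * b'.ε) g = 1 ∨ (b.ε * b'.ε) g = -1 := sq_eq_one_iff.1 (by
    rw [MonoidHom.mul_apply, mul_pow, b.sq, b'.sq, mul_one])
  let Ψ : GQ →* Ag j := (Rg.iq _ _ j).toMonoidHom.comp (t.Ψ j) * sg x (y_sq j)
  let k := Rg.cq 0 (-2) j
  have M0 : M ≠ 0 := by obtain ⟨S, a, Ad, G, -, m⟩ := h.cz.es; exact G.pos M m
  have one g (e : b.ε g = 1) (e' : b'.ε g = 1) (e2 : t.e j g = 0) : Ψ g = 1 := by
    show Rg.iq _ _ j (t.Ψ j g) * ite (b.ε g * b'.ε g = 1) _ _ = 1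
    rw [t.hΨ, e, e', e2, mul_one, if_pos rfl]
    simp
  have d : Cd M Ψ := fun g m => one g (h.cd g m) (cd g m) ((t.tq j).ker g (Hm_le h.dv m))
  have rΨ g : Rg.rq h0 j (Ψ g) = 1 := G0.f2 (((Group.isUnit g).map _).map _)
  have res g : (aa (b.ρ N) ι Ψ g).map (Rg.rq h0 j) = (b.r g).map PadicInt.toZMod := by
    rw [aa_eq b _ k, Matrix.map_smul' _ _ _ (map_mul _), rΨ, one_smul]
    exact Matrix.ext fun _ _ => Rg.rq_cq (b := -2) (j := j) h0 _
  have ug l P (o : P022E.GW.Ov l P) (n : l ∉ b.S ∪ t.T j) : Ug (b.ρ N) l P ∧ ¬ l ∣ M :=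
    ⟨Gk.ug b N l P o fun a => n (Finset.mem_union_left _ a),
      fun a => n (h.pf (Nat.mem_primeFactors.2 ⟨o.1, a, M0⟩))⟩
  have G : Gd ⊤ (b.S ∪ t.T j) (aa (b.ρ N) ι Ψ) := ⟨isOpen_univ, inferInstance,
    fun l m => (Finset.mem_union.1 m).elim (b.pr l) Nat.prime_of_mem_primeFactors,
    (am _ ι Ψ).map_one, fun g _ h _ => aa_mul g h, ⟨(b.ρ N).ker ⊓ Hm M, (b.lc _).inter (Hm_open M0),
      fun g _ m => aa_eq_one m.1 (d g m.2)⟩, fun g _ ⟨l, m, P, o, i⟩ =>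
      aa_eq_one ((ug l P o m).1.unr g i) (d g (inert_Hm o (ug l P o m).2 i))⟩
  obtain ⟨r, Q, u, -, p, h3⟩ := Pq.presq (π := Rg.rq h0 j) (by simp) G
    (Finset.mem_union_left _ b.two) b.cc (.inr ⟨t.q j, Finset.mem_union_right _
      ((G0.mem_T (t.pq j).1).2 (.inr dvd_rfl)), fun e => (t.pq j).2.1 (e ▸ b.two), _,
      b.pl.ov _ (t.pq j).1, fun g m => (res g).trans (t.spl j g m)⟩)
  simp only [res] at h3
  obtain ⟨v, v1, v2⟩ := Pn.cob p G (p := k ∘ b.gp) (by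
    rw [aa_eq b _ k, one _ b.εc (s.c ▸ b'.εc) ((t.tq j).cj _ b.cc), one_smul, mv_map, b.fix])
  obtain ⟨l, l1, l2⟩ := Nat.exists_prime_and_dvd (t.tq j).one.ne'
  obtain ⟨w, w1, w2⟩ := h.cz.lift d (fun g => Rg.rq_one h0 h2 (rΨ g)) G b.cc
    (fun m => conj_out b.cc (l1.two_le.lt_of_ne fun e => ((t.tq j).cy l l1 l2).2 (e ▸ b.two))
      (Hm_le (l2.trans h.dv) m)) ug p
  rw [io_eq ι k] at w1 w2
  have i0 y : s0 j (Rg.iq _ _ j y) = y := show y + 0 * _ = y by rw [zero_mul, add_zero]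
  have i1 y : s1 j (Rg.iq _ _ j y) = y := show y + 0 * _ = y by rw [zero_mul, add_zero]
  refine ⟨r, ⟨Q, u, v, w, lf_of _ ⟨rfl, rfl, rfl, rfl, fun _ => rfl, fun _ => rfl⟩ h k (fun g => ?_)
    p v1 v2 w1 w2, lf_of _ s h k (fun g => ?_) p v1 v2 w1 w2⟩, h3⟩
  · show s0 j (Rg.iq _ _ j (t.Ψ j g) * ite _ _ _) = _
    rw [map_mul, i0]
    split_ifs
    · rw [map_one, mul_one]
    · rw [map_add, map_one, show s0 j Rg.rt = 0 + 1 * 0 from rfl]; ring
  · show s1 j (Rg.iq _ _ j (t.Ψ j g) * ite (b.ε g * b'.ε g = 1) _ _) = _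
    have e : b'.ε g = b.ε g * (b.ε g * b'.ε g) := by rw [← mul_assoc, ← sq, b.sq, one_mul]
    rw [map_mul, i1, t.hΨ, t'.hΨ, s.e, e]
    rcases x g with a | a <;> rw [MonoidHom.mul_apply] at a
    · rw [← e, if_pos a, map_one, mul_one, e, a, mul_one]
    · rw [← e, if_neg (by rw [a]; norm_num), e, a, map_add (s1 j), map_one (s1 j),
        show s1 j Rg.rt = 0 + 1 * -2 from rfl, mul_neg_one, map_neg]
      ring

theorem rd_ur (y : ∀ j, Ag j) :
    rd (Sy.succ.ur fun j => s0 j (y j)) = rd (Sy.succ.ur fun j => s1 j (y j)) := by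
  rw [show (fun j => s0 j (y j)) = (fun j => s1 j (y j)) + 2 * fun j => (y j).im from
    funext fun j => s01 _, map_add, map_add, map_mul, map_ofNat, rd_zero.2 (dvd_mul_right _ _), add_zero]

abbrev MQ (r : ℕ) : Type := ∀ j, Matrix (Fin r) (Fin (r + 2)) (Rj (j + 1))

abbrev MU (r : ℕ) : Type := ∀ j, GQ → Matrix (Fin 2) (Fin (r + 2)) (Rj (j + 1))

abbrev MV (r : ℕ) : Type := ∀ j, Fin (r + 2) → Rj (j + 1)

theorem ur_cj (x : ℤ_[2]) : (Sy.succ.ur fun j => cj (j + 1) x) = C x := Sy.succ.ur_const _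

theorem lim_w {Q : MQ r} {u : MU r} {v w : MV r} {N M : ℕ → ℕ} {z : ∀ j, Fm (N j)} (β0 : β ≠ 0)
    (h : ∀ᶠ j in U, Lf β j (M j) (z j) t (Q j) (u j) (v j) (w j)) :
    Sy.succ.um Q *ᵥ Sy.succ.uv v = 0 ∧ Sy.succ.um Q *ᵥ Sy.succ.uv w = 0 := by
  have := (Sy.succ.uv_ae (h.mono fun j a => a.qw)).trans Sy.succ.uv_zero
  rw [Sy.uv_mv, Sy.uv_smul, ur_cj, mulVec_smul] at this
  exact ⟨(Sy.uv_mv ..).symm.trans ((Sy.succ.uv_ae (h.mono fun j a => a.qv)).trans Sy.succ.uv_zero),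
    (smul_eq_zero_iff_right fun e => β0 (C_injective (e.trans C.map_zero.symm))).1 this⟩

/-- **the two towers** -/
theorem twq (s : Sm t t') {N M : ℕ → ℕ} {z : ∀ j, Fm (N j)}
    (h : ∀ j, Hy β j (M j) (z j) t) (cd : ∀ j, Cd (M j) b'.ε) :
    ∃ (r : ℕ) (Q Q' : MQ r) (u u' : MU r) (v w v' w' : MV r),
    (∀ᶠ j in U, Lf β j (M j) (z j) t (Q j) (u j) (v j) (w j) ∧
      Lf β j (M j) (z j) t' (Q' j) (u' j) (v' j) (w' j)) ∧
    ∀ C : Matrix (Fin 2) (Fin (r + 2)) La,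
      rd (st finSumFinEquiv.symm (Sy.succ.um Q) C).det =
        rd (st finSumFinEquiv.symm (Sy.succ.um Q') C).det ∧
      rd (C * cl (Sy.succ.uv v) (Sy.succ.uv w)).det = rd (C * cl (Sy.succ.uv v') (Sy.succ.uv w')).det := by
  obtain ⟨B, hB⟩ := Pq.bndq b.gd b.two
  choose r h1 h3 using fun j => lvl s (h j) (cd j)
  obtain ⟨n, -, hn⟩ := U_bdd r (C := B + 2 * (t.m + 1)) (.of_forall fun j => by
    have := (h3 j).ge.trans (hB (t.T j) _ b.cc fun l => Nat.prime_of_mem_primeFactors)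
    rw [Nat.pow_le_pow_iff_right one_lt_two, Fintype.card_fin] at this
    have := t.crd_T j
    omega)
  have h4 := hn.mono fun j e => e ▸ h1 j
  obtain ⟨Q, h4⟩ := U_ch h4
  obtain ⟨u, h4⟩ := U_ch h4
  obtain ⟨v, h4⟩ := U_ch h4
  obtain ⟨w, h4⟩ := U_ch h4
  refine ⟨n, _, _, _, _, _, _, _, _, h4, fun C => ⟨?_, ?_⟩⟩
  · simp only [RingHom.map_det, RingHom.mapMatrix_apply, st_map]
    exact congrArg (fun A => (st _ A _).det) (Matrix.ext fun x y => rd_ur fun j => Q j x y)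
  · simp only [RingHom.map_det, RingHom.mapMatrix_apply, Matrix.map_mul]
    refine congrArg (fun A => (C.map rd * A).det) (Matrix.ext fun x y => ?_)
    fin_cases y
    exacts [rd_ur fun j => v j x, rd_ur fun j => w j x]

end Vale.Agent.P014T.Ba.Tt
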